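import Vale.Agent.P106.U.H833.Near

/-!
# P106 / U / H712 : cells which are not functions of the path of the ray (helper712, note 18423)

`C i` cells (functions of `(W, y_b)`), `Z i` nested letters (`(l, t_i)` or `(l, U_i)`), `e i = H(C (i+1) | C i, Z (i+1))`
the price of the new cell given the ray side.  No function relation between `C i` and `Z i`.

* `sum_win` : `∑_{i<n} I(Z (i+J) ; C i | Z i) ≤ ∑_{i<J} H(C i | Z i) + ∑_{i<n} ∑_{j<J} e (i+j)`.
* `sum_win_fn` : the same for variables `V i` which are functions of `Z (i+J)`.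
* `gain` : `H(C'|C) - H(C'|l,C) ≥ H(C'|C,τ) - H(C'|l,C,τ)`, `τ` a function of `C'`.
* `total` : `∑_v (H(E (v+1)|E v) - H(E v|E (v+1)) - H(E (v+1)|l, E v)) ≤ I(l ; E V | E 0)`.
* `cost_win` : `H(C (i+k) | C i, Z (i+k)) ≤ ∑_{j<k} e (i+j)`.
* `cost_time` : `H(C k | l, C i, τ) ≤ H(U | l, C i, τ) + H(C k | C i, l, U)`.
-/

set_option autoImplicit false

namespace Vale.Agent.P106.U.H712.Side

open Finset Vale.Agent.P127 Vale.Agent.P127.Stk Vale.Agent.P127.U.Cell
open Vale.Agent.P106.U.H833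

section

variable {Ω : Type} [Fintype Ω] (P : Law Ω) {S S' T T' U V W X : Type*}

theorem Fn_tr {A : Ω → S} {B : Ω → T} {D : Ω → U} (h : Fn P A B) (h' : Fn P B D) : Fn P A D :=
  fun a b ha hb e => h a b ha hb (h' a b ha hb e)

/-- nested letters -/
theorem Fn_add {Z : ℕ → Ω → T} {n : ℕ} (hZ : ∀ i < n, Fn P (Z i) (Z (i + 1))) {i j : ℕ} (hij : i ≤ j) (hj : j ≤ n) :
    Fn P (Z i) (Z j) := by
  induction j, hij using Nat.le_induction with
  | base => exact fun _ _ _ _ e => e
  | succ j hij ih => exact Fn_tr P (ih (by omega)) (hZ j (by omega))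

/-- price of a window -/
theorem cost_win {C : ℕ → Ω → S} {Z : ℕ → Ω → T} {n : ℕ} (hZ : ∀ i < n, Fn P (Z i) (Z (i + 1))) (e : ℕ → ℝ)
    (he : ∀ i < n, hc P (C (i + 1)) (fun ω => (C i ω, Z (i + 1) ω)) ≤ e i) {i k m : ℕ} (hk : i + k ≤ m) (hm : m ≤ n) :
    hc P (C (i + k)) (fun ω => (C i ω, Z m ω)) ≤ ∑ j ∈ range k, e (i + j) := by
  induction k with
  | zero =>
    have h0 : hc P (C i) (fun ω => (C i ω, Z m ω)) = 0 := by
      refine hc_zero P ?_
      intro a b _ _ e
      exact (Prod.mk.inj e).1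
    rw [sum_range_zero, add_zero, h0]
  | succ k ih =>
    have h1 := ih (by omega)
    rw [sum_range_succ]
    have h2 := hc_le_add P (C (i + k + 1)) (C (i + k)) (fun ω => (C i ω, Z m ω))
    have h3 : hc P (C (i + k + 1)) (fun ω => (C (i + k) ω, C i ω, Z m ω)) ≤
        hc P (C (i + k + 1)) (fun ω => (C (i + k) ω, Z (i + k + 1) ω)) := by
      refine hc_mono_right P _ ?_
      intro a b ha hb e
      simp only [Prod.mk.injEq] at e ⊢
      exact ⟨e.1, Fn_add P hZ (i := i + k + 1) (j := m) (by omega) hm a b ha hb e.2.2⟩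
    have h4 := he (i + k) (by omega)
    have h5 : i + (k + 1) = i + k + 1 := rfl
    rw [h5]
    linarith

/-- **information of the cells about the future letters** -/
theorem sum_win {C : ℕ → Ω → S} {Z : ℕ → Ω → T} {n J : ℕ} (hZ : ∀ i < n + J, Fn P (Z i) (Z (i + 1))) (e : ℕ → ℝ)
    (he : ∀ i < n + J, hc P (C (i + 1)) (fun ω => (C i ω, Z (i + 1) ω)) ≤ e i) :
    ∑ i ∈ range n, mi P (Z (i + J)) (C i) (Z i) ≤
      ∑ i ∈ range J, hc P (C i) (Z i) + ∑ i ∈ range n, ∑ j ∈ range J, e (i + j) := by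
  have h1 : ∀ i ∈ range n, mi P (Z (i + J)) (C i) (Z i) ≤
      (hc P (C i) (Z i) - hc P (C (i + J)) (Z (i + J))) + ∑ j ∈ range J, e (i + j) := by
    intro i hi
    have hi' := Finset.mem_range.1 hi
    rw [mi_symm]
    unfold mi
    have h2 : hc P (C i) (fun ω => (Z (i + J) ω, Z i ω)) = hc P (C i) (Z (i + J)) := by
      refine hc_congr P (fun _ _ _ _ e => congrArg Prod.fst e) (fun _ _ _ _ e => congrArg Prod.fst e) ?_ ?_
      · intro a b ha hb e
        exact Prod.ext e (Fn_add P hZ (i := i) (j := i + J) (by omega) (by omega) a b ha hb e)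
      · intro a b _ _ e
        exact congrArg Prod.fst e
    have h3 := hc_le_add P (C (i + J)) (C i) (Z (i + J))
    have h4 := cost_win P hZ e he (i := i) (k := J) (m := i + J) le_rfl (by omega)
    rw [h2]
    linarith
  refine (Finset.sum_le_sum h1).trans ?_
  rw [Finset.sum_add_distrib]
  have h2 : ∀ N : ℕ, ∑ i ∈ range N, (hc P (C i) (Z i) - hc P (C (i + J)) (Z (i + J))) ≤
      ∑ i ∈ range J, hc P (C i) (Z i) := by
    intro N
    set f : ℕ → ℝ := fun i => hc P (C i) (Z i) with hf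
    have hf0 : ∀ i, 0 ≤ f i := fun i => hc_nonneg P _ _
    have h3 : ∑ i ∈ range N, f (i + J) = ∑ i ∈ range (N + J), f i - ∑ i ∈ range J, f i := by
      rw [add_comm N J, sum_range_add, add_sub_cancel_left]
      exact Finset.sum_congr rfl fun i _ => by rw [add_comm]
    have h4 : ∑ i ∈ range N, f i ≤ ∑ i ∈ range (N + J), f i :=
      Finset.sum_le_sum_of_subset_of_nonneg (by
        intro x hx
        rw [Finset.mem_range] at hx ⊢
        omega) fun i _ _ => hf0 i
    show ∑ i ∈ range N, (f i - f (i + J)) ≤ ∑ i ∈ range J, f i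
    rw [Finset.sum_sub_distrib, h3]
    linarith
  have := h2 n
  linarith

/-- the same for variables which are revealed at most `J` steps later -/
theorem sum_win_fn {C : ℕ → Ω → S} {Z : ℕ → Ω → T} {n J : ℕ} (hZ : ∀ i < n + J, Fn P (Z i) (Z (i + 1))) (e : ℕ → ℝ)
    (he : ∀ i < n + J, hc P (C (i + 1)) (fun ω => (C i ω, Z (i + 1) ω)) ≤ e i) {Y : ℕ → Ω → X}
    (hY : ∀ i < n, Fn P (Y i) (Z (i + J))) :
    ∑ i ∈ range n, mi P (Y i) (C i) (Z i) ≤
      ∑ i ∈ range J, hc P (C i) (Z i) + ∑ i ∈ range n, ∑ j ∈ range J, e (i + j) := by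
  refine le_trans (Finset.sum_le_sum fun i hi => ?_) (sum_win P hZ e he)
  exact mi_mono_left P (C i) fun a b ha hb e => hY i (Finset.mem_range.1 hi) a b ha hb (congrArg Prod.fst e)

/-- the same, one step ahead: the time blocks -/
theorem sum_time {C : ℕ → Ω → S} {Z : ℕ → Ω → T} {n : ℕ} (hZ : ∀ i < n + 1, Fn P (Z i) (Z (i + 1))) (e : ℕ → ℝ)
    (he : ∀ i < n + 1, hc P (C (i + 1)) (fun ω => (C i ω, Z (i + 1) ω)) ≤ e i) {Y : ℕ → Ω → X}
    (hY : ∀ i < n, Fn P (Y i) (Z (i + 1))) :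
    ∑ i ∈ range n, mi P (Y i) (C i) (Z i) ≤ hc P (C 0) (Z 0) + ∑ i ∈ range n, e i := by
  have := sum_win_fn P hZ e he hY
  simpa using this

/-- **the part of the cell which is a function of the new cell is for free** -/
theorem gain {l : Ω → W} {C : Ω → S} {C' : Ω → S'} {τ : Ω → T} (hτ : Fn P τ C') :
    hc P C' (fun ω => (τ ω, C ω)) - hc P C' (fun ω => (τ ω, l ω, C ω)) ≤
      hc P C' C - hc P C' (fun ω => (l ω, C ω)) := by
  have h1 : hc P C' C = hc P τ C + hc P C' (fun ω => (τ ω, C ω)) := by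
    rw [← hc_pair P τ C' C]
    exact hc_congr P (fun _ _ _ _ e => by
        simp only [Prod.mk.injEq] at e
        exact e.1.2) (fun a b ha hb e => by
        simp only [Prod.mk.injEq] at e
        exact Prod.ext (hτ a b ha hb e.1) e.1) (fun _ _ _ _ e => e) (fun _ _ _ _ e => e)
  have h2 : hc P C' (fun ω => (l ω, C ω)) = hc P τ (fun ω => (l ω, C ω)) + hc P C' (fun ω => (τ ω, l ω, C ω)) := by
    rw [← hc_pair P τ C' (fun ω => (l ω, C ω))]
    exact hc_congr P (fun _ _ _ _ e => by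
        simp only [Prod.mk.injEq] at e
        exact e.1.2) (fun a b ha hb e => by
        simp only [Prod.mk.injEq] at e
        exact Prod.ext (hτ a b ha hb e.1) e.1) (fun _ _ _ _ e => e) (fun _ _ _ _ e => e)
  have h3 : hc P τ (fun ω => (l ω, C ω)) ≤ hc P τ C :=
    hc_mono_right P _ fun _ _ _ _ e => congrArg Prod.snd e
  linarith

/-- **totals** -/
theorem total (l : Ω → W) (E : ℕ → Ω → S) (n : ℕ) :
    ∑ v ∈ range n, (hc P (E (v + 1)) (E v) - hc P (E v) (E (v + 1)) - hc P (E (v + 1)) (fun ω => (l ω, E v ω))) ≤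
      mi P l (E n) (E 0) := by
  rw [mi_symm]
  unfold mi
  -- `H(E_n | E_0) ≥ H(E_n) - H(E_0)`
  have h1 : ∀ v, hc P (E (v + 1)) (E v) - hc P (E v) (E (v + 1)) = P.H (E (v + 1)) - P.H (E v) := by
    intro v
    unfold hc
    have : P.H (fun ω => (E (v + 1) ω, E v ω)) = P.H (fun ω => (E v ω, E (v + 1) ω)) :=
      P.H_congr fun ω ω' => by
        simp only [Prod.mk.injEq]
        tauto
    rw [this]
    ring
  have h2 : P.H (E n) - P.H (E 0) ≤ hc P (E n) (E 0) := by
    unfold hc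
    have : P.H (E n) ≤ P.H (fun ω => (E n ω, E 0 ω)) := P.H_mono fun ω ω' e => congrArg Prod.fst e
    linarith
  -- the price given the ray
  have h3 : ∀ k, hc P (E k) (fun ω => (l ω, E 0 ω)) ≤
      ∑ v ∈ range k, hc P (E (v + 1)) (fun ω => (l ω, E v ω)) := by
    intro k
    induction k with
    | zero =>
      have h0 : hc P (E 0) (fun ω => (l ω, E 0 ω)) = 0 := by
        refine hc_zero P ?_
        intro a b _ _ e
        exact (Prod.mk.inj e).2
      rw [sum_range_zero, h0]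
    | succ k ih =>
      rw [sum_range_succ]
      have g1 := hc_le_add P (E (k + 1)) (E k) (fun ω => (l ω, E 0 ω))
      have g2 : hc P (E (k + 1)) (fun ω => (E k ω, l ω, E 0 ω)) ≤ hc P (E (k + 1)) (fun ω => (l ω, E k ω)) := by
        refine hc_mono_right P _ ?_
        intro a b _ _ e
        simp only [Prod.mk.injEq] at e ⊢
        exact ⟨e.2.1, e.1⟩
      linarith
  have h4 : ∑ v ∈ range n, (hc P (E (v + 1)) (E v) - hc P (E v) (E (v + 1)) - hc P (E (v + 1)) (fun ω => (l ω, E v ω))) =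
      (P.H (E n) - P.H (E 0)) - ∑ v ∈ range n, hc P (E (v + 1)) (fun ω => (l ω, E v ω)) := by
    rw [Finset.sum_sub_distrib]
    congr 1
    rw [Finset.sum_congr rfl fun v _ => h1 v]
    exact Finset.sum_range_sub (fun v => P.H (E v)) n
  have h5 := h3 n
  rw [h4]
  linarith

/-- the price of a window given the ray and the part `τ` of the new cell, through the letter `U` of the ray side -/
theorem cost_time {l : Ω → W} {C : Ω → S} {C' : Ω → S'} {τ : Ω → T} {u : Ω → U} :
    hc P C' (fun ω => (τ ω, l ω, C ω)) ≤ hc P u (fun ω => (τ ω, l ω, C ω)) + hc P C' (fun ω => (C ω, l ω, u ω)) := by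
  have h1 := hc_le_add P C' u (fun ω => (τ ω, l ω, C ω))
  have h2 : hc P C' (fun ω => (u ω, τ ω, l ω, C ω)) ≤ hc P C' (fun ω => (C ω, l ω, u ω)) := by
    refine hc_mono_right P _ ?_
    intro a b _ _ e
    simp only [Prod.mk.injEq] at e ⊢
    exact ⟨e.2.2.2, e.2.2.1, e.1⟩
  linarith

end

end Vale.Agent.P106.U.H712.Side
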