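import Vale.Agent.P106.U.H565.PF2
import Vale.Agent.P106.U.H428.VXC
import Vale.Agent.P106.U.H61.Ext2

/-!
# P106 / U / H712 / Fam : the family of the records of a window of caps (helper712)

Frame for the rows of the producer `PF2` of `S3.F2`.

* `Win` : system and word 1 (565's `C0`, law `Q1`, value `E1`), place `b0`, distance `s` of the caps, bits, offsets.
* `Par` : numbers of the window : `B`, later caps `βS`, `βV`, lag `D0`, width `g`, age `k1`.
* `Z k` : joint word up to the cap `k` (565's `zW`); `cv k z : C2`, `R k z`, `F p k z` : data, record, prefix data at the cap `k` for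
  the value `z`; total functions of `z` (a fixed point of the support is used if `z` has probability `0`).
* `Vs`, `Xs` : young and exceptional levels (661, 715; literally those of 428's `mk2_vx_num`), `bS`, `bV` later caps.
* `good k z` : all bits are true.
* `av` : sum over the caps `k < Tc` of the means of a function of the record, on good words: the form in which every row of `F2o` is
  summed;  `cst` : 61's cost at the cap `k`.
* `Ho` : hypotheses of the window (565's `Hyp` for all good words, bits functions of the closures).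
* **`place`** : the conclusion of `PF2` at one place from the costs `psX`, `psR` and `cst ≤ 1 / 8`.
-/

set_option autoImplicit false

namespace Vale.Agent.P106.U.H712.Fam

open Finset Vale.Agent.P127 Vale.Agent.P127.Stk Vale.Agent.P127.U Vale.Agent.P106.W
open Vale.Agent.P127.U.CellD (q2 rd Nb)
open Vale.Agent.P106.U Vale.Agent.P106.U.H565 Vale.Agent.P106.U.S3 Vale.Agent.P106.U.H449 Vale.Agent.P106.U.StripL
open Vale.Agent.P106.U.StripE Vale.Agent.P106.U.LinkR Vale.Agent.P106.U.InsL Vale.Agent.P106.U.InpC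
open Vale.Agent.P106.U.H715.RegC Vale.Agent.P106.U.H715.RegR
open Vale.Agent.P127.U.JSB

/-- values of the joint words : bits, second paths (`+ (ha - a)`) of the caps `≤ k` -/
abbrev Vl := (ℕ → Bool) × (ℕ → ℕ → ℕ)

/-- prefix letters -/
abbrev Pl := ℕ → ℤ → Option ℤ

/-- **a window of caps** -/
structure Win (Ω : Type) [Fintype Ω] where
  c : C0 Ω
  hm : 3 ≤ c.I.m
  cc : ℝ
  hc : 0 ≤ cc
  in0 : ∀ ω, c.d0.In (c.tW ω) (c.κ ω)
  K1 : ℝ
  N0 : ℕ
  gd : c.I.Good K1 N0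
  Q1 : Law Ω
  E1 : List (Lt 2)
  x1 : ℝ
  cn : Cn c.rule c.P Q1 c.I.pm.n E1 x1
  /-- distance of the caps, place -/
  s : ℕ
  b0 : ℕ
  bt : Law Ω → ℕ → ℕ → Ω → Bool
  oO : Fin 7 → ℝ
  oK : ℝ
  oG : ℝ
  oN : ℝ

/-- numbers of the window -/
structure Par where
  B : ℕ
  βS : ℕ
  βV : ℕ
  D0 : ℕ
  g : ℕ
  k1 : ℕ

open Classical in
/-- **the prefix data** at one cap, precision of the numbers of the deep phi regime: path `R0` at the level before -/
noncomputable def pfC {Ω : Type} [Fintype Ω] (C : C2 Ω) (h3 : 3 ≤ C.I.m) (R0 : ℕ → ℕ) (B : ℕ) : Pf (C.erun h3) Pl :=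
  if h : Monotone (H715.RegR.k0 C.D R0) ∧ ∀ i, H715.RegR.k0 C.D R0 i ≤ C.D.L.k (C.D.ix i) then
    C.pfd h3 (H715.RegR.k0 C.D R0) h.1 h.2 B
  else C.pfd h3 (fun _ => 0) (fun _ _ _ => le_rfl) (fun _ => Nat.zero_le _) B

namespace Win

variable {Ω : Type} [Fintype Ω] (w : Win Ω)

/-- **the joint word up to the cap `k`** -/
noncomputable def Z (k : ℕ) : Ω → Vl := w.c.zW w.hm w.cc w.s w.bt w.Q1 w.b0 k

/-- a point of the support -/
noncomputable def pt : Ω := (H465.GcK.ex_supp w.Q1).choose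

theorem pt_pos : 0 < w.Q1.w w.pt := (H465.GcK.ex_supp w.Q1).choose_spec

open Classical in
/-- **data at the cap `k` for the value `z`** -/
noncomputable def cv (k : ℕ) (z : Vl) : C2 Ω :=
  if hz : 0 < w.Q1.pr (w.Z k) z then
    w.c.c2 w.hm w.cc w.gd w.cn w.in0 w.hc w.s w.bt w.b0 k z hz w.oO w.oK w.oG w.oN
  else w.c.c2 w.hm w.cc w.gd w.cn w.in0 w.hc w.s w.bt w.b0 k (w.Z k w.pt) (w.Q1.pr_pos _ w.pt_pos) w.oO w.oK w.oG w.oN

theorem cv_eq {k : ℕ} {z : Vl} (hz : 0 < w.Q1.pr (w.Z k) z) :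
    w.cv k z = w.c.c2 w.hm w.cc w.gd w.cn w.in0 w.hc w.s w.bt w.b0 k z hz w.oO w.oK w.oG w.oN := dif_pos hz

open Classical in
theorem cv_m (k : ℕ) (z : Vl) : 3 ≤ (w.cv k z).I.m := by
  unfold cv
  split_ifs
  · exact w.hm
  · exact w.hm

/-- **the record** (with the prefix letter) -/
noncomputable def R (k : ℕ) (z : Vl) : Run Ω (List (ℤ × ℤ × ℤ × ℤ) × Pl) (ℤ × S1) := (w.cv k z).erun (w.cv_m k z)

/-- its numbers -/
noncomputable def nm (k : ℕ) (z : Vl) : Run.Num := (w.cv k z).num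

/-- the second path of the cap `k` of the value `z` -/
def rt (z : Vl) (k a : ℕ) : ℕ := RCe w.c.I.ha z.2 k a

/-- precisions of the line of the ray side (blocks) -/
noncomputable def rI (a : ℕ) : ℕ := Rw w.c.I.pm.n w.E1 1 a

/-- precision of the numbers of the deep phi regime : second path of the FIRST cap, at the level before -/
noncomputable def k0 (k : ℕ) (z : Vl) : ℕ → ℕ := H715.RegR.k0 (w.cv k z).D (w.rt z 0)

/-- **the prefix data** -/
noncomputable def F (p : Par) (k : ℕ) (z : Vl) : Pf (w.R k z) Pl := pfC (w.cv k z) (w.cv_m k z) (w.rt z 0) p.B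

/-- the later caps -/
def bS (p : Par) (k : ℕ) : ℕ := w.c.I.m * (w.b0 + k * w.s + p.βS)

def bV (p : Par) (k : ℕ) : ℕ := w.c.I.m * (w.b0 + k * w.s + p.βV)

/-- young levels -/
noncomputable def Vs (p : Par) (k : ℕ) (z : Vl) : Finset ℕ :=
  H661.Yng.Vs (H339W.RCz w.c.I.ha k z.2) (Rw w.c.I.pm.n w.E1 1) w.c.I.ha p.D0 p.g (k - p.k1) k

/-- exceptional levels -/
noncomputable def Xs (p : Par) (k : ℕ) (z : Vl) : Finset ℕ :=
  H661.Yng.Xs (H339W.RCz w.c.I.ha k z.2) (Rw w.c.I.pm.n w.E1 1) w.c.I.ha p.D0 p.g (k - p.k1) k ∪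
    hits (Fo w.c w.E1) w.c.I.ha p.B p.βV w.s w.b0 k z.2

/-- all bits are true -/
def good (k : ℕ) (z : Vl) : Prop := ∀ j ≤ k, z.1 j = true

open Classical in
/-- **the sum over the caps of the means, on good words** -/
noncomputable def av (Tc : ℕ) (f : ℕ → Vl → ℝ) : ℝ :=
  ∑ k ∈ range Tc, w.Q1.ex (fun ω => if good k (w.Z k ω) then f k (w.Z k ω) else 0)

/-- **61's cost at the cap `k`** -/
noncomputable def cst (p : Par) (μ : ℕ) (K' : ℝ) (o : Fin 7 → ℝ) (o' : ℕ → ℝ) (k : ℕ) (z : Vl) : ℝ :=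
  H61.Ext2.cst (w.R k z) (w.nm k z) p.B (w.bS p k) (w.bV p k) (w.F p k z) (w.Vs p k z) (w.Xs p k z) μ K' o o'

/-- **hypotheses of the window** -/
structure Ho (Rm : ℕ) : Prop where
  hyp : ∀ k z, 0 < w.Q1.pr (w.Z k) z → good k z → ∃ Ac rc, (w.cv k z).Hyp Rm w.cc Ac rc
  dtm : ∀ k, Dtm w.Q1 (w.c.Gb w.hm w.cc w.Q1 (w.b0 + k * w.s)) (w.bt w.Q1 w.b0 k)

/-! ### elementary facts -/

/-- the second part of the word is the word of the second paths -/
theorem Z_snd (k : ℕ) (ω : Ω) : (w.Z k ω).2 = w.c.Zr w.hm w.cc w.s w.Q1 w.b0 k ω := rfl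

/-- the words are nested -/
theorem Z_nest {k k' : ℕ} (h : k ≤ k') {ω ω' : Ω} (e : w.Z k' ω = w.Z k' ω') : w.Z k ω = w.Z k ω' := G480.ZwC_nest h e

theorem Z_nest_iff {k k' : ℕ} (h : k ≤ k') (ω : Ω) : good k' (w.Z k' ω) → good k (w.Z k ω) := by
  intro hg j hj
  have h1 : w.bt w.Q1 w.b0 j ω = (w.Z k ω).1 j :=
    G480.ZwC_bit (z := w.Z k ω) (show w.Z k ω = w.Z k ω from rfl) hj
  have h2 : w.bt w.Q1 w.b0 j ω = (w.Z k' ω).1 j :=
    G480.ZwC_bit (z := w.Z k' ω) (show w.Z k' ω = w.Z k' ω from rfl) (hj.trans h)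
  rw [← h1, h2]
  exact hg j (hj.trans h)

/-- the word determines the second paths -/
theorem Z_rt {k : ℕ} {ω ω' : Ω} (e : w.Z k ω = w.Z k ω') {j a : ℕ} (hj : j ≤ k) (ha : a ≤ w.c.I.ha) :
    w.c.RT w.hm w.cc w.Q1 (w.b0 + j * w.s) a ω = w.c.RT w.hm w.cc w.Q1 (w.b0 + j * w.s) a ω' := by
  have h1 := G480.ZwC_rt (z := w.Z k ω) (show w.Z k ω = w.Z k ω from rfl) hj ha
  have h2 := G480.ZwC_rt (z := w.Z k ω') (show w.Z k ω' = w.Z k ω' from rfl) hj ha
  rw [← e] at h2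
  exact h1.trans h2.symm

/-- the cost, for the literal data -/
theorem cst_eq {p : Par} {μ : ℕ} {K' : ℝ} {o : Fin 7 → ℝ} {o' : ℕ → ℝ} {k : ℕ} {z : Vl} (hz : 0 < w.Q1.pr (w.Z k) z)
    (h : let C := w.c.c2 w.hm w.cc w.gd w.cn w.in0 w.hc w.s w.bt w.b0 k z hz w.oO w.oK w.oG w.oN
      Monotone (H715.RegR.k0 C.D (RCe w.c.I.ha z.2 0)) ∧
        ∀ i, H715.RegR.k0 C.D (RCe w.c.I.ha z.2 0) i ≤ C.D.L.k (C.D.ix i)) :
    w.cst p μ K' o o' k z =
      let C := w.c.c2 w.hm w.cc w.gd w.cn w.in0 w.hc w.s w.bt w.b0 k z hz w.oO w.oK w.oG w.oN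
      H61.Ext2.cst (C.erun w.hm) C.num p.B (w.bS p k) (w.bV p k) (C.pfd w.hm (H715.RegR.k0 C.D (RCe w.c.I.ha z.2 0)) h.1 h.2 p.B)
        (w.Vs p k z) (w.Xs p k z) μ K' o o' := by
  have e := w.cv_eq hz
  have h3 := w.cv_m k z
  show H61.Ext2.cst ((w.cv k z).erun h3) (w.cv k z).num p.B (w.bS p k) (w.bV p k) (pfC (w.cv k z) h3 (w.rt z 0) p.B)
    (w.Vs p k z) (w.Xs p k z) μ K' o o' = _
  revert h3
  rw [e]
  intro h3
  rw [show pfC _ h3 (w.rt z 0) p.B = _ from dif_pos h]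
  rfl

/-- the averages are additive -/
theorem av_add (Tc : ℕ) (f g : ℕ → Vl → ℝ) : w.av Tc (fun k z => f k z + g k z) = w.av Tc f + w.av Tc g := by
  classical
  unfold av
  rw [← Finset.sum_add_distrib]
  refine Finset.sum_congr rfl fun k _ => ?_
  rw [← w.Q1.ex_add]
  refine w.Q1.ex_congr fun ω _ => ?_
  split_ifs <;> ring

theorem av_mono {Tc : ℕ} {f g : ℕ → Vl → ℝ}
    (h : ∀ k < Tc, ∀ z, 0 < w.Q1.pr (w.Z k) z → good k z → f k z ≤ g k z) : w.av Tc f ≤ w.av Tc g := by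
  classical
  refine Finset.sum_le_sum fun k hk => w.Q1.ex_mono fun ω hω => ?_
  split_ifs with hg
  · exact h k (Finset.mem_range.1 hk) _ (w.Q1.pr_pos _ hω) hg
  · exact le_rfl

end Win

end Vale.Agent.P106.U.H712.Fam
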