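import Vale.Agent.P106.U.H712.Fam
import Vale.Agent.P106.U.H428.PF2S
import Vale.Agent.P106.U.H523.WgtS

/-!
# P106 / U / H712 / Psi : the cost of the sums, from the averages per margin and constant (helper712)

* `Win.at b` : the window at the place `b`;  `cstz` : 61's cost at the place `(b, kk)` for `μ`, `K' = 2 ^ j`, `0` where a bit is false,
  `kk < k1` or `b ≤ 8 B`.
* **`psi_of`** : if for every `μ`, `j` there are offsets with `Σ_b Σ_kk E cstz ≤ N a μ j`, `16 (Cψ + 1) Σ a ≤ 1`, then there is one cost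
  `ψ` as in 428's `PSum` (average `≤ N / 2`; `ψ ≤ Cψ` gives the sums `F2o` literally).
-/

set_option autoImplicit false

namespace Vale.Agent.P106.U.H712.Fam

open Finset Vale.Agent.P127 Vale.Agent.P127.Stk Vale.Agent.P127.U Vale.Agent.P106.W
open Vale.Agent.P127.U.CellD (q2 rd Nb)
open Vale.Agent.P106.U Vale.Agent.P106.U.H565 Vale.Agent.P106.U.S3 Vale.Agent.P106.U.H449 Vale.Agent.P106.U.StripL
open Vale.Agent.P106.U.StripE Vale.Agent.P106.U.LinkR Vale.Agent.P106.U.InsL Vale.Agent.P106.U.InpC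
open Vale.Agent.P106.U.H715.RegC Vale.Agent.P106.U.H715.RegR
open Vale.Agent.P127.U.JSB

namespace Win

variable {Ω : Type} [Fintype Ω] (w : Win Ω)

/-- the window at the place `b` -/
def at' (b : ℕ) : Win Ω := { w with b0 := b }

theorem sum_av (n Tc : ℕ) (f : ℕ → ℕ → Vl → ℝ) : ∑ b ∈ range n, (w.at' b).av Tc (f b) =
    ∑ b ∈ range n, ∑ kk ∈ range Tc, w.Q1.ex (fun ω => open Classical in
      if good kk ((w.at' b).Z kk ω) then f b kk ((w.at' b).Z kk ω) else 0) := rfl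

open Classical in
/-- **the cost of the place `(b, kk)`** -/
noncomputable def cstz (p : Par) (μ j : ℕ) (o : Fin 7 → ℝ) (o' : ℕ → ℝ) (b kk : ℕ) (z : Vl) : ℝ :=
  if good kk z ∧ p.k1 ≤ kk ∧ 8 * p.B < b then (w.at' b).cst p μ (2 ^ j) o o' kk z else 0

theorem cst_nonneg {p : Par} {μ : ℕ} {K' : ℝ} (hK : 0 < K') {o : Fin 7 → ℝ} {o' : ℕ → ℝ} {k : ℕ} {z : Vl} :
    0 ≤ w.cst p μ K' o o' k z := H61.Ext2.cst_nonneg hK

theorem cstz_nonneg {p : Par} {μ j : ℕ} {o : Fin 7 → ℝ} {o' : ℕ → ℝ} {b kk : ℕ} {z : Vl} :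
    0 ≤ w.cstz p μ j o o' b kk z := by
  classical
  unfold cstz
  split_ifs
  · exact (w.at' b).cst_nonneg (by positivity)
  · exact le_rfl

/-- **one cost** -/
theorem psi_of (p : Par) {K Cψ N : ℝ} (hK : 1 ≤ K) (hC : 0 ≤ Cψ) (hN : 0 ≤ N) (n Tc : ℕ) (a : ℕ → ℕ → ℝ)
    (ha0 : ∀ μ j, 0 ≤ a μ j)
    (ha : 16 * (Cψ + 1) * ∑ μ ∈ Icc w.c.I.m p.B, ∑ j ∈ range (p.B + 1), a μ j ≤ 1)
    (h : ∀ μ, w.c.I.m ≤ μ → μ ≤ p.B → ∀ j : ℕ, (100 * K) ^ 20 ≤ (2 : ℝ) ^ j → (2 : ℝ) ^ j ≤ 2 * p.B →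
      ∃ (o : Fin 7 → ℝ) (o' : ℕ → ℝ), ((∀ k, 0 < o k ∧ o k ≤ 1) ∧ ∀ k, 0 < o' k ∧ o' k ≤ 1) ∧
        ∑ b ∈ range n, ∑ kk ∈ range Tc, w.Q1.ex (fun ω => w.cstz p μ j o o' b kk ((w.at' b).Z kk ω)) ≤ N * a μ j) :
    ∃ ψ : ℕ → ℕ → Vl → ℝ, (∀ b kk ω, 0 < w.Q1.w ω → 0 ≤ ψ b kk ((w.at' b).Z kk ω)) ∧
      ∑ b ∈ range n, ∑ kk ∈ range Tc, w.Q1.ex (fun ω => ψ b kk ((w.at' b).Z kk ω)) ≤ N / 2 ∧
      ∀ (b kk : ℕ) (z : Vl) (hz : 0 < w.Q1.pr ((w.at' b).Z kk) z), kk < Tc → 8 * p.B < b → ψ b kk z ≤ Cψ → good kk z → p.k1 ≤ kk →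
        let C := w.c.c2 w.hm w.cc w.gd w.cn w.in0 w.hc w.s w.bt b kk z hz w.oO w.oK w.oG w.oN
        ∀ (hk : Monotone (C.k0P z.2)) (hl : ∀ i, C.k0P z.2 i ≤ C.D.L.k (C.D.ix i)),
        ∀ μ ≤ p.B, w.c.I.m ≤ μ → ∀ K' : ℝ, (100 * K) ^ 20 ≤ K' → K' ≤ p.B → ∃ (o1 : Fin 7 → ℝ) (o' : ℕ → ℝ),
          S3.F2o (C.erun w.hm) C.num p.B (w.c.I.m * (b + kk * w.s + p.βS)) (w.c.I.m * (b + kk * w.s + p.βV))
            (C.pfd w.hm (C.k0P z.2) hk hl p.B) (w.c.VsP w.E1 p.D0 p.g p.k1 kk z.2)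
            (w.c.XsP w.E1 p.B p.βV w.s p.D0 p.g p.k1 b kk z.2) μ K' o1 o' := by
  classical
  -- the pairs (μ, j)
  obtain ⟨S, hS⟩ : ∃ S : Finset (ℕ × ℕ), S = ((Icc w.c.I.m p.B) ×ˢ (range (p.B + 1))).filter
    fun x => (100 * K) ^ 20 ≤ (2 : ℝ) ^ x.2 ∧ (2 : ℝ) ^ x.2 ≤ 2 * p.B := ⟨_, rfl⟩
  have hmem : ∀ x ∈ S, (w.c.I.m ≤ x.1 ∧ x.1 ≤ p.B) ∧ (100 * K) ^ 20 ≤ (2 : ℝ) ^ x.2 ∧ (2 : ℝ) ^ x.2 ≤ 2 * p.B := by
    intro x hx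
    rw [hS, Finset.mem_filter, Finset.mem_product, Finset.mem_Icc] at hx
    exact ⟨hx.1.1, hx.2⟩
  have hch : ∀ x : ℕ × ℕ, ∃ y : (Fin 7 → ℝ) × (ℕ → ℝ), x ∈ S → (((∀ k, 0 < y.1 k ∧ y.1 k ≤ 1) ∧ ∀ k, 0 < y.2 k ∧ y.2 k ≤ 1) ∧
      ∑ b ∈ range n, ∑ kk ∈ range Tc, w.Q1.ex (fun ω => w.cstz p x.1 x.2 y.1 y.2 b kk ((w.at' b).Z kk ω)) ≤ N * a x.1 x.2) := by
    intro x
    by_cases hx : x ∈ S
    · obtain ⟨⟨h1, h2⟩, h3, h4⟩ := hmem x hx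
      obtain ⟨o, o', h5, h6⟩ := h x.1 h1 h2 x.2 h3 h4
      exact ⟨(o, o'), fun _ => ⟨h5, h6⟩⟩
    · exact ⟨(fun _ => 0, fun _ => 0), fun hx' => absurd hx' hx⟩
  choose y hy using hch
  have hsum : (2 * Cψ + 1 + 1) * ∑ x ∈ S, a x.1 x.2 / (fun _ : ℕ × ℕ => (1 / 8 : ℝ)) x ≤ 1 := by
    have h1 : ∑ x ∈ S, a x.1 x.2 ≤ ∑ μ ∈ Icc w.c.I.m p.B, ∑ j ∈ range (p.B + 1), a μ j := by
      rw [← Finset.sum_product']
      rw [hS]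
      exact Finset.sum_le_sum_of_subset_of_nonneg (Finset.filter_subset _ _) fun x _ _ => ha0 _ _
    have h2 : ∑ x ∈ S, a x.1 x.2 / (fun _ : ℕ × ℕ => (1 / 8 : ℝ)) x = 8 * ∑ x ∈ S, a x.1 x.2 := by
      rw [Finset.mul_sum]
      refine Finset.sum_congr rfl fun x _ => ?_
      show a x.1 x.2 / (1 / 8) = _
      ring
    rw [h2]
    have h3 := mul_le_mul_of_nonneg_left h1 (by linarith : (0 : ℝ) ≤ 16 * (Cψ + 1))
    linarith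
  obtain ⟨w1, w2, w3⟩ := H523.Wgt.wgt S w.Q1 (fun b kk => (w.at' b).Z kk) n Tc N (2 * Cψ + 1) (by linarith)
    (fun x b kk z => w.cstz p x.1 x.2 (y x).1 (y x).2 b kk z) (fun _ => 1 / 8) (fun x => a x.1 x.2) (fun _ _ => by norm_num)
    (fun x _ b kk z _ => w.cstz_nonneg) hN (fun x hx => (hy x hx).2) hsum
  refine ⟨fun b kk z => H523.Wgt.psi S (2 * Cψ + 1) (fun x b kk z => w.cstz p x.1 x.2 (y x).1 (y x).2 b kk z)
    (fun _ => 1 / 8) b kk z / 2, ?_, ?_, ?_⟩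
  · intro b kk ω hω
    exact div_nonneg (w1 b kk _ (w.Q1.pr_pos _ hω)) (by norm_num)
  · have e1 : ∀ b kk, w.Q1.ex (fun ω => H523.Wgt.psi S (2 * Cψ + 1)
        (fun x b kk z => w.cstz p x.1 x.2 (y x).1 (y x).2 b kk z) (fun _ => 1 / 8) b kk ((w.at' b).Z kk ω) / 2) =
        (1 / 2) * w.Q1.ex (fun ω => H523.Wgt.psi S (2 * Cψ + 1)
        (fun x b kk z => w.cstz p x.1 x.2 (y x).1 (y x).2 b kk z) (fun _ => 1 / 8) b kk ((w.at' b).Z kk ω)) := by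
      intro b kk
      rw [← w.Q1.ex_const_mul]
      refine congrArg w.Q1.ex (funext fun ω => ?_)
      ring
    simp only [e1, ← Finset.mul_sum]
    linarith
  · intro b kk z hz hkk hb hψ hg hk1 C hk hl
    have hle : H523.Wgt.psi S (2 * Cψ + 1) (fun x b kk z => w.cstz p x.1 x.2 (y x).1 (y x).2 b kk z)
      (fun _ => 1 / 8) b kk z ≤ 2 * Cψ + 1 := by linarith
    have h8 := w3 b kk z hz hle
    refine H61.Ext2.sum_of (R := C.erun w.hm) hK ?_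
    intro μ hμ hm j h1 h2
    have hx : (μ, j) ∈ S := by
      rw [hS, Finset.mem_filter, Finset.mem_product, Finset.mem_Icc]
      exact ⟨⟨⟨hm, hμ⟩, H523.Wgt.card_dya h2⟩, h1, h2⟩
    refine ⟨(y (μ, j)).1, (y (μ, j)).2, (hy _ hx).1, ?_⟩
    have h9 := h8 (μ, j) hx
    change w.cstz p μ j (y (μ, j)).1 (y (μ, j)).2 b kk z ≤ 1 / 8 at h9
    unfold cstz at h9
    rw [if_pos ⟨hg, hk1, hb⟩] at h9
    have h10 := (w.at' b).cst_eq (p := p) (μ := μ) (K' := 2 ^ j) (o := (y (μ, j)).1) (o' := (y (μ, j)).2) (k := kk) (z := z) hz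
      ⟨hk, hl⟩
    rw [h10] at h9
    exact h9

end Win

end Vale.Agent.P106.U.H712.Fam
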