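import Vale.Agent.P106.U.H416.Defs

/-!
# P106 / U / H712 : geometry of the glue `FIXA → StK106` (helper712)

* `move` : two rays in the same thin plank are in the same boxes, up to the constant.
* `shift` : a box for the block which begins at the time `τ` gives a box for the block which begins at `0` (level `0`).
-/

set_option autoImplicit false

namespace Vale.Agent.P106.U.H712

open Vale.Agent.P127 Vale.Agent.P127.Stk Vale.Agent.P127.U Vale.Agent.P106.W Vale.Agent.P106.K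
open Vale.Agent.P122.C2 (fn)

theorem am {x y a b : ℝ} (hx : |x| ≤ a) (hy : |y| ≤ b) : |x * y| ≤ a * b := by
  rw [abs_mul]
  exact mul_le_mul hx hy (abs_nonneg _) ((abs_nonneg _).trans hx)

theorem aa {x y a b : ℝ} (hx : |x| ≤ a) (hy : |y| ≤ b) : |x + y| ≤ a + b :=
  (abs_add_le _ _).trans (add_le_add hx hy)

theorem asb {x y a b : ℝ} (hx : |x| ≤ a) (hy : |y| ≤ b) : |x - y| ≤ a + b :=
  (abs_sub _ _).trans (add_le_add hx hy)

theorem fn_le {θ a : ℝ} {v : Fin 2 → ℝ} (h : ∀ k, |v k| ≤ a) : |fn θ v| ≤ 2 * a := by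
  unfold fn
  have h1 : |-Real.sin θ * v 0| ≤ 1 * a := am (by rw [abs_neg]; exact Real.abs_sin_le_one θ) (h 0)
  have h2 : |Real.cos θ * v 1| ≤ 1 * a := am (Real.abs_cos_le_one θ) (h 1)
  exact (aa h1 h2).trans (by linarith)

/-- adapted coordinate -/
theorem dzt {A q u2 c τ : ℝ} {v y s y' s' sn : Fin 2 → ℝ} {z z' w : ℝ}
    (hA : 1 ≤ A) (hq : 0 < q) (hr : A * q ≤ u2) (hc : 1 ≤ c) (hτ0 : 0 ≤ τ) (hτ1 : τ ≤ 1)
    (hy : ∀ k, |y' k - y k| ≤ q) (hs : ∀ k, |s' k - s k| ≤ q) (hsn : ∀ k, |sn k - s k| ≤ q)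
    (hz : |(z' + ∑ k, y' k * (s' k - sn k)) - (z + ∑ k, y k * (s k - sn k))| ≤ q ^ 2)
    {Y Y' : Fin 2 → ℝ} {Z Z' : ℝ} (hY : ∀ k, Y k = A * (y k + τ * s k)) (hY' : ∀ k, Y' k = A * (y' k + τ * s' k))
    (hZ : Z = A * (z - τ * (∑ k, s k ^ 2) / 2)) (hZ' : Z' = A * (z' - τ * (∑ k, s' k ^ 2) / 2))
    (h2 : ∀ k, |s k - v k| ≤ c * u2) :
    |(Z' + ∑ k, Y' k * (s' k - v k) - w) - (Z + ∑ k, Y k * (s k - v k) - w)| ≤ 9 * c * (A * q * u2) := by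
  have hA0 : 0 ≤ A := by linarith
  have hqr : q ≤ u2 := le_trans (by nlinarith) hr
  have hcu : u2 ≤ c * u2 := le_mul_of_one_le_left (hq.le.trans hqr) hc
  have e : (Z' + ∑ k, Y' k * (s' k - v k) - w) - (Z + ∑ k, Y k * (s k - v k) - w) =
      A * (((z' + ∑ k, y' k * (s' k - sn k)) - (z + ∑ k, y k * (s k - sn k))) +
        ((y' 0 - y 0) * (sn 0 - v 0) + (y' 1 - y 1) * (sn 1 - v 1)) +
        τ * ((s' 0 - s 0) * ((s' 0 + s 0) / 2 - v 0) + (s' 1 - s 1) * ((s' 1 + s 1) / 2 - v 1))) := by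
    rw [hZ, hZ']
    simp only [Fin.sum_univ_two, hY, hY']
    ring
  have f1 : ∀ k, |sn k - v k| ≤ 2 * c * u2 := by
    intro k
    have e : sn k - v k = (sn k - s k) + (s k - v k) := by ring
    rw [e]
    exact (aa ((hsn k).trans hqr) (h2 k)).trans (by linarith)
  have f2 : ∀ k, |(s' k + s k) / 2 - v k| ≤ 2 * c * u2 := by
    intro k
    have e : (s' k + s k) / 2 - v k = (s' k - s k) / 2 + (s k - v k) := by ring
    rw [e]
    have : |(s' k - s k) / 2| ≤ u2 := by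
      rw [abs_div, abs_of_pos (by norm_num : (0 : ℝ) < 2)]
      have := hs k
      have := abs_nonneg (s' k - s k)
      linarith
    exact (aa this (h2 k)).trans (by linarith)
  have g5 : |τ * ((s' 0 - s 0) * ((s' 0 + s 0) / 2 - v 0) + (s' 1 - s 1) * ((s' 1 + s 1) / 2 - v 1))| ≤
      1 * (q * (2 * c * u2) + q * (2 * c * u2)) :=
    am (by rw [abs_of_nonneg hτ0]; exact hτ1) (aa (am (hs 0) (f2 0)) (am (hs 1) (f2 1)))
  have g6 : |(y' 0 - y 0) * (sn 0 - v 0) + (y' 1 - y 1) * (sn 1 - v 1)| ≤ q * (2 * c * u2) + q * (2 * c * u2) :=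
    aa (am (hy 0) (f1 0)) (am (hy 1) (f1 1))
  have g8 : q ^ 2 ≤ q * (c * u2) := by
    rw [pow_two]
    exact mul_le_mul_of_nonneg_left (hqr.trans hcu) hq.le
  rw [e, abs_mul, abs_of_nonneg hA0]
  refine (mul_le_mul_of_nonneg_left (aa (aa hz g6) g5) hA0).trans ?_
  calc A * (q ^ 2 + (q * (2 * c * u2) + q * (2 * c * u2)) + 1 * (q * (2 * c * u2) + q * (2 * c * u2)))
      ≤ A * (9 * c * (q * u2)) := mul_le_mul_of_nonneg_left (by linarith) hA0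
    _ = 9 * c * (A * q * u2) := by ring

/-- value of the functional -/
theorem de0 {r u1 u2 c θ α κ ζ ζ' : ℝ} {p Y Y' : Fin 2 → ℝ} (hr0 : 0 < r) (hr : r ≤ u1) (h12 : u1 ≤ u2) (hc : 1 ≤ c)
    (hα : |α| * u2 ≤ c) (hκ : |κ| * u2 ≤ c) (dY : ∀ k, |Y' k - Y k| ≤ 2 * r) (dz : |ζ' - ζ| ≤ 9 * c * (r * u2))
    (h1 : ∀ k, |Y k - p k| ≤ c * u2) (h4 : |fn θ (Y - p) + κ * ζ - α * ∑ k, (Y k - p k) ^ 2| ≤ c * u1) :
    |fn θ (Y' - p) + κ * ζ' - α * ∑ k, (Y' k - p k) ^ 2| ≤ 44 * c ^ 2 * u1 := by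
  have hu2 : 0 < u2 := lt_of_lt_of_le hr0 (hr.trans h12)
  have hru2 : r ≤ c * u2 := (hr.trans h12).trans (le_mul_of_one_le_left hu2.le hc)
  have hcc : c ≤ c ^ 2 := by nlinarith
  have b1 : ∀ k, |Y' k - p k| ≤ 3 * c * u2 := by
    intro k
    have e : Y' k - p k = (Y' k - Y k) + (Y k - p k) := by ring
    rw [e]
    exact (aa (dY k) (h1 k)).trans (by linarith)
  have e : fn θ (Y' - p) + κ * ζ' - α * ∑ k, (Y' k - p k) ^ 2 =
      (fn θ (Y - p) + κ * ζ - α * ∑ k, (Y k - p k) ^ 2) +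
      (fn θ (Y' - Y) + κ * (ζ' - ζ) +
        -α * ((Y' 0 - Y 0) * ((Y' 0 - p 0) + (Y 0 - p 0)) + (Y' 1 - Y 1) * ((Y' 1 - p 1) + (Y 1 - p 1)))) := by
    unfold fn
    simp only [Fin.sum_univ_two, Pi.sub_apply]
    ring
  have t1 : |fn θ (Y' - Y)| ≤ 2 * (2 * r) := fn_le dY
  have t2 : |κ * (ζ' - ζ)| ≤ 9 * c ^ 2 * r := by
    refine (am le_rfl dz).trans ?_
    calc |κ| * (9 * c * (r * u2)) = 9 * c * r * (|κ| * u2) := by ring
      _ ≤ 9 * c * r * c := mul_le_mul_of_nonneg_left hκ (by positivity)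
      _ = 9 * c ^ 2 * r := by ring
  have t3 : ∀ k, |(Y' k - Y k) * ((Y' k - p k) + (Y k - p k))| ≤ 2 * r * (4 * c * u2) := fun k =>
    am (dY k) ((aa (b1 k) (h1 k)).trans (by linarith))
  have t4 : |-α * ((Y' 0 - Y 0) * ((Y' 0 - p 0) + (Y 0 - p 0)) + (Y' 1 - Y 1) * ((Y' 1 - p 1) + (Y 1 - p 1)))| ≤
      16 * c ^ 2 * r := by
    refine (am (le_of_eq (abs_neg α)) (aa (t3 0) (t3 1))).trans ?_
    calc |α| * (2 * r * (4 * c * u2) + 2 * r * (4 * c * u2)) = 16 * c * r * (|α| * u2) := by ring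
      _ ≤ 16 * c * r * c := mul_le_mul_of_nonneg_left hα (by positivity)
      _ = 16 * c ^ 2 * r := by ring
  rw [e]
  refine (aa h4 (aa (aa t1 t2) t4)).trans ?_
  have g1 : c * u1 ≤ c ^ 2 * u1 := mul_le_mul_of_nonneg_right hcc (hr0.le.trans hr)
  have g2 : c ^ 2 * r ≤ c ^ 2 * u1 := mul_le_mul_of_nonneg_left hr (by positivity)
  have g3 : r ≤ c ^ 2 * r := le_mul_of_one_le_left hr0.le (hc.trans hcc)
  linarith

/-- slope of the functional -/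
theorem de1 {r u1 u2 c θ α κ ζ ζ' Z Z' w : ℝ} {p v s s' Y Y' : Fin 2 → ℝ} (hr0 : 0 < r) (hr : r ≤ u1) (h12 : u1 ≤ u2)
    (hc : 1 ≤ c) (hα : |α| * u2 ≤ c) (hκ : |κ| * u2 ≤ c) (dY : ∀ k, |Y' k - Y k| ≤ 2 * r)
    (dS : ∀ k, |s' k - s k| ≤ r) (dz : |ζ' - ζ| ≤ 9 * c * (r * u2))
    (hζ : ζ = Z + ∑ k, Y k * (s k - v k) - w) (hζ' : ζ' = Z' + ∑ k, Y' k * (s' k - v k) - w)
    (h1 : ∀ k, |Y k - p k| ≤ c * u2) (h2 : ∀ k, |s k - v k| ≤ c * u2)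
    (h5 : |fn θ (s - v) + κ * (∑ k, (s k - v k) ^ 2) / 2 + 2 * α * (Z + ∑ k, p k * (s k - v k) - w)| ≤ c * u1) :
    |fn θ (s' - v) + κ * (∑ k, (s' k - v k) ^ 2) / 2 + 2 * α * (Z' + ∑ k, p k * (s' k - v k) - w)| ≤ 44 * c ^ 2 * u1 := by
  have hu2 : 0 < u2 := lt_of_lt_of_le hr0 (hr.trans h12)
  have hru2 : r ≤ c * u2 := (hr.trans h12).trans (le_mul_of_one_le_left hu2.le hc)
  have hcc : c ≤ c ^ 2 := by nlinarith
  have b2 : ∀ k, |s' k - v k| ≤ 2 * c * u2 := by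
    intro k
    have e : s' k - v k = (s' k - s k) + (s k - v k) := by ring
    rw [e]
    exact (aa (dS k) (h2 k)).trans (by linarith)
  have e : fn θ (s' - v) + κ * (∑ k, (s' k - v k) ^ 2) / 2 + 2 * α * (Z' + ∑ k, p k * (s' k - v k) - w) =
      (fn θ (s - v) + κ * (∑ k, (s k - v k) ^ 2) / 2 + 2 * α * (Z + ∑ k, p k * (s k - v k) - w)) +
      (fn θ (s' - s) + κ / 2 * ((s' 0 - s 0) * ((s' 0 - v 0) + (s 0 - v 0)) + (s' 1 - s 1) * ((s' 1 - v 1) + (s 1 - v 1))) +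
        2 * α * ((ζ' - ζ) -
          (((Y' 0 - Y 0) * (s' 0 - v 0) + (Y 0 - p 0) * (s' 0 - s 0)) +
            ((Y' 1 - Y 1) * (s' 1 - v 1) + (Y 1 - p 1) * (s' 1 - s 1))))) := by
    rw [hζ, hζ']
    unfold fn
    simp only [Fin.sum_univ_two, Pi.sub_apply]
    ring
  have t1 : |fn θ (s' - s)| ≤ 2 * r := fn_le dS
  have t2 : ∀ k, |(s' k - s k) * ((s' k - v k) + (s k - v k))| ≤ r * (3 * c * u2) := fun k =>
    am (dS k) ((aa (b2 k) (h2 k)).trans (by linarith))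
  have t3 : |κ / 2 * ((s' 0 - s 0) * ((s' 0 - v 0) + (s 0 - v 0)) + (s' 1 - s 1) * ((s' 1 - v 1) + (s 1 - v 1)))| ≤
      3 * c ^ 2 * r := by
    refine (am le_rfl (aa (t2 0) (t2 1))).trans ?_
    rw [abs_div, abs_of_pos (by norm_num : (0 : ℝ) < 2)]
    calc |κ| / 2 * (r * (3 * c * u2) + r * (3 * c * u2)) = 3 * c * r * (|κ| * u2) := by ring
      _ ≤ 3 * c * r * c := mul_le_mul_of_nonneg_left hκ (by positivity)
      _ = 3 * c ^ 2 * r := by ring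
  have t4 : ∀ k, |(Y' k - Y k) * (s' k - v k) + (Y k - p k) * (s' k - s k)| ≤ 5 * c * (r * u2) := by
    intro k
    refine (aa (am (dY k) (b2 k)) (am (h1 k) (dS k))).trans (le_of_eq ?_)
    ring
  have t5 : |2 * α * ((ζ' - ζ) -
          (((Y' 0 - Y 0) * (s' 0 - v 0) + (Y 0 - p 0) * (s' 0 - s 0)) +
            ((Y' 1 - Y 1) * (s' 1 - v 1) + (Y 1 - p 1) * (s' 1 - s 1))))| ≤ 38 * c ^ 2 * r := by
    have g4 : |2 * α| ≤ 2 * |α| := by rw [abs_mul, abs_of_pos (by norm_num : (0 : ℝ) < 2)]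
    refine (am g4 (asb dz (aa (t4 0) (t4 1)))).trans ?_
    calc 2 * |α| * (9 * c * (r * u2) + (5 * c * (r * u2) + 5 * c * (r * u2))) = 38 * c * r * (|α| * u2) := by ring
      _ ≤ 38 * c * r * c := mul_le_mul_of_nonneg_left hα (by positivity)
      _ = 38 * c ^ 2 * r := by ring
  rw [e]
  refine (aa h5 (aa (aa t1 t3) t5)).trans ?_
  have g1 : c * u1 ≤ c ^ 2 * u1 := mul_le_mul_of_nonneg_right hcc (hr0.le.trans hr)
  have g2 : c ^ 2 * r ≤ c ^ 2 * u1 := mul_le_mul_of_nonneg_left hr (by positivity)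
  have g3 : r ≤ c ^ 2 * r := le_mul_of_one_le_left hr0.le (hc.trans hcc)
  linarith

theorem fl_close {n : ℕ} {x y : ℝ} (h : fl1 n x = fl1 n y) : |x - y| ≤ (1 / 2 : ℝ) ^ n := by
  have h0 : (0 : ℝ) < 2 ^ n := by positivity
  have h1 := Int.abs_sub_lt_one_of_floor_eq_floor (h : ⌊(2 : ℝ) ^ n * x⌋ = ⌊(2 : ℝ) ^ n * y⌋)
  have h3 : ((1 : ℝ) / 2) ^ n = 1 / 2 ^ n := by rw [div_pow, one_pow]
  rw [← mul_sub, abs_mul, abs_of_pos h0] at h1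
  rw [h3, le_div_iff₀ h0]
  linarith

theorem fl_self (n : ℕ) (x : ℝ) : |(fl1 n x : ℝ) / 2 ^ n - x| ≤ (1 / 2 : ℝ) ^ n := by
  have h0 : (0 : ℝ) < 2 ^ n := by positivity
  have h1 := Int.floor_le ((2 : ℝ) ^ n * x)
  have h2 := Int.lt_floor_add_one ((2 : ℝ) ^ n * x)
  have h3 : ((1 : ℝ) / 2) ^ n = 1 / 2 ^ n := by rw [div_pow, one_pow]
  unfold fl1
  rw [h3, abs_le]
  constructor
  · rw [neg_le_sub_iff_le_add, ← sub_le_iff_le_add, sub_le_iff_le_add, ← add_div, le_div_iff₀ h0]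
    linarith
  · rw [sub_le_iff_le_add, div_le_iff₀ h0, add_mul, div_mul_cancel₀ _ h0.ne']
    linarith

theorem qa01 {a : ℕ} {t : ℝ} (h0 : 0 ≤ t) (h1 : t ≤ 1) : 0 ≤ qa a t ∧ qa a t ≤ 1 := by
  have h2 : (0 : ℝ) < 2 ^ a := by positivity
  have h3 := Int.floor_le ((2 : ℝ) ^ a * t)
  unfold qa fl1
  constructor
  · refine div_nonneg ?_ h2.le
    have : (0 : ℤ) ≤ ⌊(2 : ℝ) ^ a * t⌋ := Int.floor_nonneg.2 (by positivity)
    exact_mod_cast this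
  · rw [div_le_one h2]
    refine h3.trans ?_
    nlinarith

/-- two rays in the same thin plank are in the same boxes of thickness at least the plank -/
theorem move {c : ℝ} (hc : 1 ≤ c) {n a : ℕ} {l l' : Ry} {t : ℝ} (ht0 : 0 ≤ t) (ht1 : t ≤ 1) (hpl : pl n l = pl n l')
    {B : Cbx} (hr : (2 : ℝ) ^ a / 2 ^ n ≤ B.u1) (h12 : B.u1 ≤ B.u2) (hα : |B.α| * B.u2 ≤ c) (hκ : |B.κ| * B.u2 ≤ c)
    (h : Bin c B 0 (bl a l t)) : Bin (44 * c ^ 2) B 0 (bl a l' t) := by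
  have hq : (0 : ℝ) < (1 / 2) ^ n := by positivity
  have hA : (1 : ℝ) ≤ 2 ^ a := one_le_pow₀ (by norm_num)
  have hAq : (2 : ℝ) ^ a / 2 ^ n = 2 ^ a * (1 / 2) ^ n := by rw [div_pow, one_pow]; ring
  rw [hAq] at hr
  have hu1 : 0 < B.u1 := lt_of_lt_of_le (by positivity) hr
  have hu2 : 0 < B.u2 := lt_of_lt_of_le hu1 h12
  obtain ⟨hτ0, hτ1⟩ := qa01 (a := a) ht0 ht1
  unfold pl plm at hpl
  simp only [Prod.mk.injEq] at hpl
  obtain ⟨e1, e2, e3⟩ := hpl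
  have hs : ∀ k, |l'.s k - l.s k| ≤ (1 / 2 : ℝ) ^ n := fun k => by
    rw [abs_sub_comm]
    exact fl_close (congrFun e1 k)
  have hy : ∀ k, |l'.y k - l.y k| ≤ (1 / 2 : ℝ) ^ n := fun k => by
    rw [abs_sub_comm]
    exact fl_close (congrFun e2 k)
  have hsn : ∀ k, |(fl n l.s k : ℝ) / 2 ^ n - l.s k| ≤ (1 / 2 : ℝ) ^ n := fun k => fl_self n (l.s k)
  have hz : |(l'.z + ∑ k, l'.y k * (l'.s k - (fl n l.s k : ℝ) / 2 ^ n)) -
      (l.z + ∑ k, l.y k * (l.s k - (fl n l.s k : ℝ) / 2 ^ n))| ≤ ((1 / 2 : ℝ) ^ n) ^ 2 := by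
    rw [← pow_mul, mul_comm n 2, abs_sub_comm]
    rw [← e1] at e3
    exact fl_close e3
  unfold Bin at h ⊢
  obtain ⟨h1, h2, h3, h4, h5⟩ := h
  have hmax : max (B.u2 ^ 2) (0 : ℝ) = B.u2 ^ 2 := max_eq_left (sq_nonneg _)
  rw [hmax] at h3 ⊢
  set Y := (bl a l t).y with hYd
  set Y' := (bl a l' t).y with hYd'
  set Z := (bl a l t).z with hZd
  set Z' := (bl a l' t).z with hZd'
  have hS : (bl a l t).s = l.s := rfl
  have hS' : (bl a l' t).s = l'.s := rfl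
  rw [hS] at h2 h3 h4 h5
  rw [hS']
  have hY : ∀ k, Y k = 2 ^ a * (l.y k + qa a t * l.s k) := fun k => rfl
  have hY' : ∀ k, Y' k = 2 ^ a * (l'.y k + qa a t * l'.s k) := fun k => rfl
  have hZ : Z = 2 ^ a * (l.z - qa a t * (∑ k, l.s k ^ 2) / 2) := rfl
  have hZ' : Z' = 2 ^ a * (l'.z - qa a t * (∑ k, l'.s k ^ 2) / 2) := rfl
  have dz := dzt (w := B.ω) hA hq (hr.trans h12) hc hτ0 hτ1 hy hs hsn hz hY hY' hZ hZ' h2
  set r : ℝ := 2 ^ a * (1 / 2) ^ n with hrd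
  have hr0 : 0 < r := by positivity
  have hqr : (1 / 2 : ℝ) ^ n ≤ r := le_mul_of_one_le_left hq.le hA
  have dY : ∀ k, |Y' k - Y k| ≤ 2 * r := by
    intro k
    rw [hY, hY']
    have e : 2 ^ a * (l'.y k + qa a t * l'.s k) - 2 ^ a * (l.y k + qa a t * l.s k) =
        2 ^ a * ((l'.y k - l.y k) + qa a t * (l'.s k - l.s k)) := by ring
    rw [e, abs_mul, abs_of_nonneg (by positivity)]
    have h7 := aa (hy k) (am (a := 1) (by rw [abs_of_nonneg hτ0]; exact hτ1) (hs k))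
    calc (2 : ℝ) ^ a * |l'.y k - l.y k + qa a t * (l'.s k - l.s k)| ≤ 2 ^ a * ((1 / 2) ^ n + 1 * (1 / 2) ^ n) :=
          mul_le_mul_of_nonneg_left h7 (by positivity)
      _ = 2 * r := by rw [hrd]; ring
  have dS : ∀ k, |l'.s k - l.s k| ≤ r := fun k => (hs k).trans hqr
  have hcu : B.u2 ≤ c * B.u2 := le_mul_of_one_le_left hu2.le hc
  have hru2 : r ≤ B.u2 := hr.trans h12
  have hcc : c ≤ c ^ 2 := by nlinarith
  have hccu : c * B.u2 ≤ c ^ 2 * B.u2 := mul_le_mul_of_nonneg_right hcc hu2.le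
  refine ⟨fun k => ?_, fun k => ?_, ?_, de0 hr0 hr h12 hc hα hκ dY dz h1 h4, de1 hr0 hr h12 hc hα hκ dY dS dz rfl rfl h1 h2 h5⟩
  · have e : Y' k - B.p k = (Y' k - Y k) + (Y k - B.p k) := by ring
    rw [e]
    exact (aa (dY k) (h1 k)).trans (by linarith)
  · have e : l'.s k - B.v k = (l'.s k - l.s k) + (l.s k - B.v k) := by ring
    rw [e]
    exact (aa (dS k) (h2 k)).trans (by linarith)
  · have e : Z' + ∑ k, Y' k * (l'.s k - B.v k) - B.ω =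
        ((Z' + ∑ k, Y' k * (l'.s k - B.v k) - B.ω) - (Z + ∑ k, Y k * (l.s k - B.v k) - B.ω)) +
          (Z + ∑ k, Y k * (l.s k - B.v k) - B.ω) := by ring
    rw [e]
    refine (aa dz h3).trans ?_
    have g1 : r * B.u2 ≤ B.u2 ^ 2 := by rw [pow_two]; exact mul_le_mul_of_nonneg_right hru2 hu2.le
    have g2 : c * (r * B.u2) ≤ c ^ 2 * B.u2 ^ 2 := mul_le_mul hcc g1 (by positivity) (by positivity)
    have g3 : c * B.u2 ^ 2 ≤ c ^ 2 * B.u2 ^ 2 := mul_le_mul_of_nonneg_right hcc (by positivity)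
    have g4 : 0 ≤ c ^ 2 * B.u2 ^ 2 := by positivity
    linarith

/-- the box for the block which begins at `0` -/
noncomputable def sh (τ : ℝ) (B : Cbx) : Cbx :=
  ⟨B.θ, B.u1, B.u2, B.κ - 2 * τ * B.α, B.α, fun k => B.p k - τ * B.v k, B.v, B.ω + τ * (∑ k, B.v k ^ 2) / 2⟩

/-- level `0` : change of the beginning of the block -/
theorem shift {c : ℝ} (hc : 1 ≤ c) {l : Ry} {t : ℝ} (ht0 : 0 ≤ t) (ht1 : t ≤ 1) {B : Cbx} (hu2 : 0 ≤ B.u2) (hu1 : 0 ≤ B.u1)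
    {H : ℝ} (h : Bin c B 0 (bl 0 l t)) : Bin (2 * c ^ 2) (sh (qa 0 t) B) H l := by
  obtain ⟨hτ0, hτ1⟩ := qa01 (a := 0) ht0 ht1
  set τ := qa 0 t with hτ
  unfold Bin at h ⊢
  obtain ⟨h1, h2, h3, h4, h5⟩ := h
  have hmax : max (B.u2 ^ 2) (0 : ℝ) = B.u2 ^ 2 := max_eq_left (sq_nonneg _)
  rw [hmax] at h3
  have hY : ∀ k, (bl 0 l t).y k = l.y k + τ * l.s k := fun k => by
    show (2 : ℝ) ^ 0 * (l.y k + qa 0 t * l.s k) = _
    rw [pow_zero, one_mul]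
  have hZ : (bl 0 l t).z = l.z - τ * (∑ k, l.s k ^ 2) / 2 := by
    show (2 : ℝ) ^ 0 * (l.z - qa 0 t * (∑ k, l.s k ^ 2) / 2) = _
    rw [pow_zero, one_mul]
  have hS : (bl 0 l t).s = l.s := rfl
  rw [hS] at h2 h3 h4 h5
  have hcc : c ≤ c ^ 2 := by nlinarith
  have k1 : c * B.u2 ≤ c ^ 2 * B.u2 := mul_le_mul_of_nonneg_right hcc hu2
  have k2 : c * B.u1 ≤ c ^ 2 * B.u1 := mul_le_mul_of_nonneg_right hcc hu1
  have k3 : c * B.u2 ^ 2 ≤ c ^ 2 * B.u2 ^ 2 := mul_le_mul_of_nonneg_right hcc (by positivity)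
  have hτa : |τ| ≤ 1 := by rw [abs_of_nonneg hτ0]; exact hτ1
  have h2' : ∀ k, |l.s k - B.v k| ≤ c * B.u2 := h2
  refine ⟨fun k => ?_, fun k => ?_, ?_, ?_, ?_⟩
  · show |l.y k - (B.p k - τ * B.v k)| ≤ 2 * c ^ 2 * B.u2
    have e : l.y k - (B.p k - τ * B.v k) = ((bl 0 l t).y k - B.p k) - τ * (l.s k - B.v k) := by rw [hY]; ring
    rw [e]
    exact (asb (h1 k) (am hτa (h2 k))).trans (by linarith)
  · show |l.s k - B.v k| ≤ 2 * c ^ 2 * B.u2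
    have : 0 ≤ c ^ 2 * B.u2 := by positivity
    exact (h2 k).trans (by linarith)
  · show |l.z + ∑ k, l.y k * (l.s k - B.v k) - (B.ω + τ * (∑ k, B.v k ^ 2) / 2)| ≤ 2 * c ^ 2 * max (B.u2 ^ 2) H
    have e : l.z + ∑ k, l.y k * (l.s k - B.v k) - (B.ω + τ * (∑ k, B.v k ^ 2) / 2) =
        ((bl 0 l t).z + ∑ k, (bl 0 l t).y k * (l.s k - B.v k) - B.ω) -
          τ * (((l.s 0 - B.v 0) * (l.s 0 - B.v 0) + (l.s 1 - B.v 1) * (l.s 1 - B.v 1)) / 2) := by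
      rw [hZ]
      simp only [Fin.sum_univ_two, hY]
      ring
    rw [e]
    have g1 : |((l.s 0 - B.v 0) * (l.s 0 - B.v 0) + (l.s 1 - B.v 1) * (l.s 1 - B.v 1)) / 2| ≤ c ^ 2 * B.u2 ^ 2 := by
      rw [abs_div, abs_of_pos (by norm_num : (0 : ℝ) < 2), div_le_iff₀ (by norm_num)]
      refine (aa (am (h2 0) (h2 0)) (am (h2 1) (h2 1))).trans (le_of_eq ?_)
      ring
    have g2 := asb h3 (am hτa g1)
    have g3 : c ^ 2 * B.u2 ^ 2 ≤ c ^ 2 * max (B.u2 ^ 2) H := mul_le_mul_of_nonneg_left (le_max_left _ _) (by positivity)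
    linarith
  · show |fn B.θ (l.y - fun k => B.p k - τ * B.v k) + (B.κ - 2 * τ * B.α) *
      (l.z + ∑ k, l.y k * (l.s k - B.v k) - (B.ω + τ * (∑ k, B.v k ^ 2) / 2)) -
        B.α * ∑ k, (l.y k - (B.p k - τ * B.v k)) ^ 2| ≤ 2 * c ^ 2 * B.u1
    have e : fn B.θ (l.y - fun k => B.p k - τ * B.v k) + (B.κ - 2 * τ * B.α) *
      (l.z + ∑ k, l.y k * (l.s k - B.v k) - (B.ω + τ * (∑ k, B.v k ^ 2) / 2)) -
        B.α * ∑ k, (l.y k - (B.p k - τ * B.v k)) ^ 2 =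
        (fn B.θ ((bl 0 l t).y - B.p) + B.κ * ((bl 0 l t).z + ∑ k, (bl 0 l t).y k * (l.s k - B.v k) - B.ω) -
          B.α * ∑ k, ((bl 0 l t).y k - B.p k) ^ 2) -
        τ * (fn B.θ (l.s - B.v) + B.κ * (∑ k, (l.s k - B.v k) ^ 2) / 2 +
          2 * B.α * ((bl 0 l t).z + ∑ k, B.p k * (l.s k - B.v k) - B.ω)) := by
      rw [hZ]
      unfold fn
      simp only [Fin.sum_univ_two, Pi.sub_apply, hY]
      ring
    rw [e]
    exact (asb h4 (am hτa h5)).trans (by linarith)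
  · show |fn B.θ (l.s - B.v) + (B.κ - 2 * τ * B.α) * (∑ k, (l.s k - B.v k) ^ 2) / 2 +
      2 * B.α * (l.z + ∑ k, (B.p k - τ * B.v k) * (l.s k - B.v k) - (B.ω + τ * (∑ k, B.v k ^ 2) / 2))| ≤ 2 * c ^ 2 * B.u1
    have e : fn B.θ (l.s - B.v) + (B.κ - 2 * τ * B.α) * (∑ k, (l.s k - B.v k) ^ 2) / 2 +
      2 * B.α * (l.z + ∑ k, (B.p k - τ * B.v k) * (l.s k - B.v k) - (B.ω + τ * (∑ k, B.v k ^ 2) / 2)) =
        fn B.θ (l.s - B.v) + B.κ * (∑ k, (l.s k - B.v k) ^ 2) / 2 +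
          2 * B.α * ((bl 0 l t).z + ∑ k, B.p k * (l.s k - B.v k) - B.ω) := by
      rw [hZ]
      simp only [Fin.sum_univ_two]
      ring
    rw [e]
    have : 0 ≤ c ^ 2 * B.u1 := by positivity
    linarith

end Vale.Agent.P106.U.H712
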