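import Vale.Agent.P106.U.H712.Glue
import Vale.Agent.P106.U.H652.Fin

/-!
# P106 / U / H712 : `H652.PGlu N` (helper712)
-/

set_option autoImplicit false

namespace Vale.Agent.P106.U.H712

/-- **the glue**, in the form of `H652.PGlu` -/
theorem glu {N : ℝ} (hN : 0 ≤ N) : H652.PGlu N := by
  intro H
  refine stK106_of hN fun lam h0 h1 ε hε => ?_
  obtain ⟨k, k0, _, hk⟩ := H lam (lam + ε) h0 h1 (by linarith)
  exact ⟨k, k0.le, hk⟩

end Vale.Agent.P106.U.H712
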