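import Vale.Agent.P106.U.H712.Geo
import Vale.Agent.P106.U.H61.Mac
import Vale.Agent.P106.K.Cond

/-!
# P106 / U / H712 : the glue `FIXA → K.StK106` (helper712)

* `rp` : representative of the thin plank of a ray (an exact ray, function of the plank).
* `rbx` : a box with the widths rounded to powers of `2`.
* `stK106_of` : `FIXA lam N k (lam + ε)` for all `lam, ε` and some `k ≥ 0` implies `K.StK106 N`.
-/

set_option autoImplicit false

namespace Vale.Agent.P106.U.H712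

open Vale.Agent.P127 Vale.Agent.P127.Stk Vale.Agent.P127.U Vale.Agent.P106.W Vale.Agent.P106.K
open Vale.Agent.P127.U.JSB (hc_cond_sum cond_avg cond_supp cond_supp')
open Vale.Agent.P122.C2 (fn)

section fin

variable {Ω : Type} [Fintype Ω]

open Classical in
/-- representative of a plank -/
noncomputable def rpS (P : Law Ω) (n : ℕ) (l : Ω → Ry) (S : (Fin 2 → ℤ) × (Fin 2 → ℤ) × ℤ) : Ry :=
  if h : ∃ ω, 0 < P.w ω ∧ pl n (l ω) = S then l h.choose else ⟨0, 0, 0⟩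

/-- representative of the ray -/
noncomputable def rp (P : Law Ω) (n : ℕ) (l : Ω → Ry) (ω : Ω) : Ry := rpS P n l (pl n (l ω))

theorem rp_spec (P : Law Ω) (n : ℕ) (l : Ω → Ry) {ω : Ω} (h : 0 < P.w ω) :
    ∃ ω', 0 < P.w ω' ∧ rp P n l ω = l ω' ∧ pl n (l ω') = pl n (l ω) := by
  have h1 : ∃ ω', 0 < P.w ω' ∧ pl n (l ω') = pl n (l ω) := ⟨ω, h, rfl⟩
  refine ⟨h1.choose, h1.choose_spec.1, ?_, h1.choose_spec.2⟩
  unfold rp rpS
  rw [dif_pos h1]

theorem rp_pl (P : Law Ω) (n : ℕ) (l : Ω → Ry) {ω : Ω} (h : 0 < P.w ω) : pl n (rp P n l ω) = pl n (l ω) := by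
  obtain ⟨ω', _, h2, h3⟩ := rp_spec P n l h
  rw [h2, h3]

/-- exponent of the width -/
theorem rn_ex {u : ℝ} (h : 0 < u ∧ u ≤ 1) : ∃ n : ℕ, (1 / 2 : ℝ) ^ (n + 1) < u ∧ u ≤ (1 / 2 : ℝ) ^ n :=
  exists_nat_pow_near_of_lt_one h.1 h.2 (by norm_num) (by norm_num)

open Classical in
/-- exponent of the width -/
noncomputable def rn (u : ℝ) : ℕ := if h : 0 < u ∧ u ≤ 1 then (rn_ex h).choose else 0

theorem rn_spec {u : ℝ} (h0 : 0 < u) (h1 : u ≤ 1) : (1 / 2 : ℝ) ^ (rn u + 1) < u ∧ u ≤ (1 / 2 : ℝ) ^ rn u := by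
  have h : 0 < u ∧ u ≤ 1 := ⟨h0, h1⟩
  unfold rn
  rw [dif_pos h]
  exact (rn_ex h).choose_spec

theorem rn_mono {u v : ℝ} (h0 : 0 < u) (h1 : v ≤ 1) (h : u ≤ v) : rn v ≤ rn u := by
  have g1 := (rn_spec h0 (h.trans h1)).1
  have g2 := (rn_spec (lt_of_lt_of_le h0 h) h1).2
  by_contra hc
  push Not at hc
  have h3 : ((1 : ℝ) / 2) ^ rn v ≤ (1 / 2) ^ (rn u + 1) := pow_le_pow_of_le_one (by norm_num) (by norm_num) (by omega)
  linarith

theorem rn_le {u : ℝ} {m : ℕ} (h0 : 0 < u) (h1 : u ≤ 1) (h : (1 / 2 : ℝ) ^ m ≤ u) : rn u ≤ m := by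
  have g2 := (rn_spec h0 h1).2
  by_contra hc
  push Not at hc
  have h3 : ((1 : ℝ) / 2) ^ rn u < (1 / 2) ^ m := pow_lt_pow_right_of_lt_one₀ (by norm_num) (by norm_num) hc
  linarith

/-- widths rounded to powers of `2` -/
noncomputable def rbx (B : Cbx) : Cbx :=
  ⟨B.θ, (1 / 2 : ℝ) ^ rn B.u1, (1 / 2 : ℝ) ^ rn B.u2, B.κ, B.α, B.p, B.v, B.ω⟩

theorem bin_mono {c H H' : ℝ} (hc : 0 ≤ c) {B B' : Cbx} {l : Ry} (hθ : B.θ = B'.θ) (hκ : B.κ = B'.κ) (hα : B.α = B'.α)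
    (hp : B.p = B'.p) (hv : B.v = B'.v) (hω : B.ω = B'.ω) (h1 : B.u1 ≤ B'.u1) (h2 : B.u2 ≤ B'.u2)
    (hH : max (B.u2 ^ 2) H ≤ max (B'.u2 ^ 2) H') (h : Bin c B H l) : Bin c B' H' l := by
  obtain ⟨a1, a2, a3, a4, a5⟩ := h
  unfold Bin
  rw [← hθ, ← hκ, ← hα, ← hp, ← hv, ← hω]
  exact ⟨fun k => (a1 k).trans (mul_le_mul_of_nonneg_left h2 hc), fun k => (a2 k).trans (mul_le_mul_of_nonneg_left h2 hc),
    a3.trans (mul_le_mul_of_nonneg_left hH hc), a4.trans (mul_le_mul_of_nonneg_left h1 hc),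
    a5.trans (mul_le_mul_of_nonneg_left h1 hc)⟩

theorem bin_c {c c' H : ℝ} (hc : c ≤ c') {B : Cbx} {l : Ry} (h1 : 0 ≤ B.u1) (h2 : 0 ≤ B.u2) (h : Bin c B H l) :
    Bin c' B H l := by
  obtain ⟨a1, a2, a3, a4, a5⟩ := h
  exact ⟨fun k => (a1 k).trans (mul_le_mul_of_nonneg_right hc h2), fun k => (a2 k).trans (mul_le_mul_of_nonneg_right hc h2),
    a3.trans (mul_le_mul_of_nonneg_right hc ((sq_nonneg _).trans (le_max_left _ _))),
    a4.trans (mul_le_mul_of_nonneg_right hc h1), a5.trans (mul_le_mul_of_nonneg_right hc h1)⟩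

/-- **the box of `JK` is a label of class `44` of the representative** -/
theorem lb_of {n a : ℕ} (han : a ≤ n) {l l' : Ry} {t : ℝ} (ht0 : 0 ≤ t) (ht1 : t ≤ 1) (hpl : pl n l = pl n l') {B : Cbx}
    (hok : B.ok (1 / 8) (2 ^ a / 2 ^ n) (2 ^ a / 2 ^ (2 * n)))
    (hin : B.In (2 ^ a / 2 ^ (2 * n)) (bl a l t).y (bl a l t).s (bl a l t).z) :
    LbOk 44 n a (rbx B) l' t ∧ (rbx B).u2 = (1 / 2 : ℝ) ^ rn B.u2 ∧ (rbx B).u1 = (1 / 2 : ℝ) ^ rn B.u1 := by
  obtain ⟨r1, u12, u2, α2, κ2, -, -⟩ := hok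
  have hA : (1 : ℝ) ≤ 2 ^ a := one_le_pow₀ (by norm_num)
  have hr0 : (0 : ℝ) < 2 ^ a / 2 ^ n := by positivity
  have h1 : 0 < B.u1 := lt_of_lt_of_le hr0 r1
  have h2 : 0 < B.u2 := lt_of_lt_of_le h1 u12
  have h11 : B.u1 ≤ 1 := u12.trans u2
  have hH : max (B.u2 ^ 2) ((2 : ℝ) ^ a / 2 ^ (2 * n)) = B.u2 ^ 2 := by
    refine max_eq_left ?_
    have g1 : ((2 : ℝ) ^ a / 2 ^ n) ^ 2 ≤ B.u2 ^ 2 := pow_le_pow_left₀ hr0.le (r1.trans u12) 2
    refine le_trans ?_ g1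
    rw [div_pow, ← pow_mul (2 : ℝ) n 2, mul_comm n 2]
    refine div_le_div_of_nonneg_right ?_ (by positivity)
    rw [pow_two]
    exact le_mul_of_one_le_left (by positivity) hA
  have hb : Bin 1 B 0 (bl a l t) := by
    obtain ⟨a1, a2, a3, a4, a5⟩ := hin
    rw [hH] at a3
    refine ⟨fun k => by rw [one_mul]; exact a1 k, fun k => by rw [one_mul]; exact a2 k, ?_, by rw [one_mul]; exact a4,
      by rw [one_mul]; exact a5⟩
    rw [one_mul, max_eq_left (sq_nonneg _)]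
    exact a3
  have hm := move (c := 1) le_rfl ht0 ht1 hpl r1 u12 (by linarith) (by linarith) hb
  rw [one_pow, mul_one] at hm
  have s1 := rn_spec h1 h11
  have s2 := rn_spec h2 u2
  have d1 : (1 / 2 : ℝ) ^ rn B.u1 ≤ 2 * B.u1 := by
    have := s1.1
    rw [pow_succ] at this
    linarith
  have d2 : (1 / 2 : ℝ) ^ rn B.u2 ≤ 2 * B.u2 := by
    have := s2.1
    rw [pow_succ] at this
    linarith
  refine ⟨⟨⟨rn B.u2, rn B.u1, rfl, rfl, rn_mono h1 u2 u12, ?_⟩, ?_, ?_, ?_⟩, rfl, rfl⟩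
  · have h3 : rn B.u1 ≤ n - a := by
      refine rn_le h1 h11 (le_trans (le_of_eq ?_) r1)
      rw [div_pow, one_pow, pow_sub₀ _ (by norm_num) han]
      field_simp
    omega
  · show |B.α| * (1 / 2 : ℝ) ^ rn B.u2 ≤ 44
    have := mul_le_mul_of_nonneg_left d2 (abs_nonneg B.α)
    linarith
  · show |B.κ| * (1 / 2 : ℝ) ^ rn B.u2 ≤ 44
    have := mul_le_mul_of_nonneg_left d2 (abs_nonneg B.κ)
    linarith
  · refine bin_mono (by norm_num) (B := B) rfl rfl rfl rfl rfl rfl s1.2 s2.2 ?_ hm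
    exact max_le_max (pow_le_pow_left₀ h2.le s2.2 2) le_rfl

/-- logarithm of the volume -/
theorem log_vol {r H u1 u2 : ℝ} {B : Cbx} (hr : 0 < r) (hH : 0 < H) (h1 : B.u1 = u1) (h2 : B.u2 = u2) (hu1 : 0 < u1)
    (hu2 : 0 < u2) (h : H ≤ u2 ^ 2) :
    Real.log (B.vol r H) = Real.log u1 + 3 * Real.log u2 - 2 * Real.log r - Real.log H := by
  unfold Cbx.vol
  rw [h1, h2, max_eq_right (by rw [le_div_iff₀ hH]; linarith), Real.log_mul (by positivity) (by positivity),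
    Real.log_div (by positivity) (by positivity), Real.log_div (by positivity) (by positivity),
    Real.log_mul hu1.ne' hu2.ne', Real.log_pow, Real.log_pow]
  push_cast
  ring

/-- the label of level `0` for the representative gives a box of `K` for the ray -/
theorem box_of {c : ℝ} (hc : 1 ≤ c) {n : ℕ} {l l' : Ry} {t : ℝ} (ht0 : 0 ≤ t) (ht1 : t ≤ 1) (hpl : pl n l = pl n l')
    {B : Cbx} (h : LbOk c n 0 B l t) :
    (Bok (2 * (44 * c ^ 2) ^ 2) (sh (qa 0 t) B) ((1 / 2 : ℝ) ^ n) ∧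
      Bin (2 * (44 * c ^ 2) ^ 2) (sh (qa 0 t) B) ((1 / 2 : ℝ) ^ (2 * n)) l') ∧
    Real.log ((sh (qa 0 t) B).vol ((1 / 2 : ℝ) ^ n) ((1 / 2 : ℝ) ^ (2 * n))) =
      Real.log B.u1 + 3 * Real.log B.u2 + 4 * n * Real.log 2 ∧ Real.log B.u1 ≤ Real.log B.u2 := by
  obtain ⟨⟨b, R, e2, e1, hbR, hR⟩, hα, hκ, hin⟩ := h
  have h1 : 0 < B.u1 := by rw [e1]; positivity
  have h2 : 0 < B.u2 := by rw [e2]; positivity
  have h12 : B.u1 ≤ B.u2 := by
    rw [e1, e2]
    exact pow_le_pow_of_le_one (by norm_num) (by norm_num) hbR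
  have h21 : B.u2 ≤ 1 := by rw [e2]; exact pow_le_one₀ (by norm_num) (by norm_num)
  have hr : (1 / 2 : ℝ) ^ n ≤ B.u1 := by
    rw [e1]
    exact pow_le_pow_of_le_one (by norm_num) (by norm_num) (by omega)
  have hr' : (2 : ℝ) ^ 0 / 2 ^ n ≤ B.u1 := by
    refine le_trans (le_of_eq ?_) hr
    rw [pow_zero, div_pow, one_pow]
  have hm := move hc ht0 ht1 hpl hr' h12 hα hκ hin
  have hc2 : 1 ≤ c ^ 2 := one_le_pow₀ hc
  have hs := shift (c := 44 * c ^ 2) (by linarith) ht0 ht1 h2.le h1.le (H := (1 / 2 : ℝ) ^ (2 * n)) hm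
  obtain ⟨hτ0, hτ1⟩ := qa01 (a := 0) ht0 ht1
  have hcc : c ≤ c ^ 2 := by nlinarith
  have hc4 : c ^ 2 ≤ (c ^ 2) ^ 2 := by nlinarith
  have hbig : 3 * c ≤ 2 * (44 * c ^ 2) ^ 2 := by nlinarith
  refine ⟨⟨⟨h1, ?_, ?_, ?_, ?_, ?_⟩, hs⟩, ?_, Real.log_le_log h1 h12⟩
  · show (1 / 2 : ℝ) ^ n ≤ 2 * (44 * c ^ 2) ^ 2 * B.u1
    exact hr.trans (le_mul_of_one_le_left h1.le (by linarith))
  · show B.u1 ≤ 2 * (44 * c ^ 2) ^ 2 * B.u2
    exact h12.trans (le_mul_of_one_le_left h2.le (by linarith))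
  · show B.u2 ≤ 2 * (44 * c ^ 2) ^ 2
    linarith
  · show |B.α| * B.u2 ≤ 2 * (44 * c ^ 2) ^ 2
    linarith
  · show |B.κ - 2 * qa 0 t * B.α| * B.u2 ≤ 2 * (44 * c ^ 2) ^ 2
    have g1 : |B.κ - 2 * qa 0 t * B.α| ≤ |B.κ| + 2 * |B.α| := by
      refine (abs_sub _ _).trans ?_
      rw [abs_mul, abs_mul, abs_of_pos (by norm_num : (0 : ℝ) < 2), abs_of_nonneg hτ0]
      have := mul_le_mul_of_nonneg_right hτ1 (abs_nonneg B.α)
      linarith
    have g2 := mul_le_mul_of_nonneg_right g1 h2.le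
    linarith
  · have g1 : (1 / 2 : ℝ) ^ (2 * n) ≤ B.u2 ^ 2 := by
      rw [mul_comm 2 n, pow_mul]
      exact pow_le_pow_left₀ (by positivity) (hr.trans h12) 2
    rw [log_vol (B := sh (qa 0 t) B) (u1 := B.u1) (u2 := B.u2) (by positivity) (by positivity) rfl rfl h1 h2 g1, Real.log_pow, Real.log_pow,
      one_div, Real.log_inv]
    push_cast
    ring

theorem cond_pos {γ : Type} (P : Law Ω) (C : Ω → γ) {z : γ} (hz : 0 < P.pr C z) {ω : Ω}
    (h : 0 < (P.cond C z).w ω) : 0 < P.w ω ∧ C ω = z :=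
  ⟨cond_supp P C z h, cond_supp' P C z hz h⟩

theorem ext_pos {Ω' : Type} [Fintype Ω'] {P : Law Ω} {P' : Law Ω'} {π : Ω' → Ω} (h : ∀ ω, P'.pr π ω = P.w ω) {ω : Ω'}
    (hω : 0 < P'.w ω) : 0 < P.w (π ω) := by
  rw [← h]
  exact P'.pr_pos π hω

/-- **level `0`** -/
theorem side_b {c lam k : ℝ} (hc : 1 ≤ c) (hlam : 0 ≤ lam) (hk : 0 ≤ k) (Q : Law Ω) (l l' : Ω → Ry) (t : Ω → ℝ)
    (e0 : ℕ × ℕ) (n : ℕ) (ht : ∀ ω, 0 < Q.w ω → 0 ≤ t ω ∧ t ω ≤ 1) (hpl : ∀ ω, 0 < Q.w ω → pl n (l' ω) = pl n (l ω))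
    (hfn : ∀ ω ω', 0 < Q.w ω → 0 < Q.w ω' → pl n (l ω) = pl n (l ω') → l' ω = l' ω') :
    XX c lam k 0 Q l' t (fun _ => ()) (fun _ => e0) n 0 ≤
      K.excF (2 * (44 * c ^ 2) ^ 2) Q (fun ω => pl n (l ω)) l ((1 / 2 : ℝ) ^ n) ((1 / 2 : ℝ) ^ (2 * n)) (fun _ => ()) +
        4 * n * Real.log 2 := by
  have hc1 : 1 ≤ 2 * (44 * c ^ 2) ^ 2 := by
    have hc2 : 1 ≤ c ^ 2 := one_le_pow₀ hc
    nlinarith
  refine csSup_le ?_ ?_
  · refine ⟨_, Ω, inferInstance, Q, id, fun ω => own 1 (bl 0 (l' ω) (t ω)), pr_id Q, fun ω _ => ?_, rfl⟩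
    refine ⟨⟨0, 0, by simp [own], by simp [own], le_rfl, by simp⟩, ?_, ?_, own_in hc (by norm_num) _⟩
    · show |(0 : ℝ)| * 1 ≤ c
      rw [abs_zero, zero_mul]
      linarith
    · show |(0 : ℝ)| * 1 ≤ c
      rw [abs_zero, zero_mul]
      linarith
  · rintro v ⟨Ω', _, P', π, A, h1, h2, rfl⟩
    have hp : ∀ ω, 0 < P'.w ω → 0 < Q.w (π ω) := fun ω hω => ext_pos h1 hω
    have hbx : ∀ ω, 0 < P'.w ω → _ := fun ω hω =>
      box_of hc (ht _ (hp ω hω)).1 (ht _ (hp ω hω)).2 (hpl _ (hp ω hω)) (h2 ω hω)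
    have g1 := exF_le hc1 (r := (1 / 2 : ℝ) ^ n) (H := (1 / 2 : ℝ) ^ (2 * n)) (by positivity) Q (fun ω => pl n (l ω)) l
      (fun _ => ()) (P' := P') (π := π) (W := fun ω => sh (qa 0 (t (π ω))) (A ω)) h1 (fun ω hω => (hbx ω hω).1)
    refine le_trans ?_ (add_le_add_left g1 _)
    have g2 : Stk.hc P' (fun ω => l' (π ω)) (fun ω => (A ω, fl1 0 (t (π ω)), ())) ≤
        Stk.hc P' (fun ω => pl n (l (π ω))) (fun ω => (sh (qa 0 (t (π ω))) (A ω), ())) := by
      refine (hc_mono_left P' ?_).trans (hc_mono_right P' _ ?_)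
      · intro ω ω' p p' e
        exact hfn _ _ (hp ω p) (hp ω' p') (Prod.mk.inj e).1
      · intro ω ω' p p' e
        simp only [Prod.mk.injEq] at e ⊢
        have e2 : qa 0 (t (π ω)) = qa 0 (t (π ω')) := by
          unfold qa
          rw [e.2.1]
        rw [e2, e.1]
        exact ⟨rfl, trivial⟩
    have g3 : P'.ex (fun ω => Real.log ((sh (qa 0 (t (π ω))) (A ω)).vol ((1 / 2 : ℝ) ^ n) ((1 / 2 : ℝ) ^ (2 * n)))) ≤
        P'.ex (fun ω => ((3 + lam) * Real.log (A ω).u2 + (1 - lam) * Real.log (A ω).u1) + 4 * n * Real.log 2) := by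
      refine P'.ex_mono fun ω hω => ?_
      obtain ⟨_, g4, g5⟩ := hbx ω hω
      rw [g4]
      have := mul_le_mul_of_nonneg_left g5 hlam
      linarith
    have g4 : P'.ex (fun ω => ((3 + lam) * Real.log (A ω).u2 + (1 - lam) * Real.log (A ω).u1) + 4 * n * Real.log 2) =
        P'.ex (fun ω => (3 + lam) * Real.log (A ω).u2 + (1 - lam) * Real.log (A ω).u1) + 4 * n * Real.log 2 := by
      rw [P'.ex_add, P'.ex_const]
    have g5 : 0 ≤ P'.ex (fun ω => dsh (A ω) e0) := P'.ex_nonneg fun ω _ => by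
      unfold dsh
      positivity
    have g6 := mul_nonneg hk g5
    unfold valX val
    rw [g4] at g3
    simp only [Nat.cast_zero, mul_zero, zero_mul, add_zero]
    linarith

/-- the volume of the box of `JK` and the value of the rounded label -/
theorem vol_a {a n : ℕ} {B : Cbx} (hok : B.ok (1 / 8) (2 ^ a / 2 ^ n) (2 ^ a / 2 ^ (2 * n))) {lam : ℝ}
    (h0 : 0 ≤ lam) (h1 : lam ≤ 1) :
    -Real.log (B.vol (2 ^ a / 2 ^ n) (2 ^ a / 2 ^ (2 * n))) ≤
      -((3 + lam) * Real.log (rbx B).u2 + (1 - lam) * Real.log (rbx B).u1) + 3 * a * Real.log 2 - 4 * n * Real.log 2 +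
        lam * n * Real.log 2 + 4 * Real.log 2 := by
  obtain ⟨r1, u12, u2, -, -, -, -⟩ := hok
  have hA : (1 : ℝ) ≤ 2 ^ a := one_le_pow₀ (by norm_num)
  have hr0 : (0 : ℝ) < 2 ^ a / 2 ^ n := by positivity
  have p1 : 0 < B.u1 := lt_of_lt_of_le hr0 r1
  have p2 : 0 < B.u2 := lt_of_lt_of_le p1 u12
  have hH : (2 : ℝ) ^ a / 2 ^ (2 * n) ≤ B.u2 ^ 2 := by
    have g1 : ((2 : ℝ) ^ a / 2 ^ n) ^ 2 ≤ B.u2 ^ 2 := pow_le_pow_left₀ hr0.le (r1.trans u12) 2
    refine le_trans ?_ g1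
    rw [div_pow, ← pow_mul (2 : ℝ) n 2, mul_comm n 2]
    refine div_le_div_of_nonneg_right ?_ (by positivity)
    rw [pow_two]
    exact le_mul_of_one_le_left (by positivity) hA
  rw [log_vol (u1 := B.u1) (u2 := B.u2) hr0 (by positivity) rfl rfl p1 p2 hH, Real.log_div (by positivity) (by positivity),
    Real.log_div (by positivity) (by positivity), Real.log_pow, Real.log_pow, Real.log_pow]
  have s1 := (rn_spec p1 (u12.trans u2)).1
  have s2 := (rn_spec p2 u2).1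
  have l1 : Real.log (rbx B).u1 - Real.log 2 ≤ Real.log B.u1 := by
    have := Real.log_le_log (by positivity) s1.le
    rw [pow_succ, Real.log_mul (by positivity) (by norm_num), one_div, Real.log_inv] at this
    show Real.log ((1 / 2 : ℝ) ^ rn B.u1) - Real.log 2 ≤ _
    rw [one_div]
    linarith
  have l2 : Real.log (rbx B).u2 - Real.log 2 ≤ Real.log B.u2 := by
    have := Real.log_le_log (by positivity) s2.le
    rw [pow_succ, Real.log_mul (by positivity) (by norm_num), one_div, Real.log_inv] at this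
    show Real.log ((1 / 2 : ℝ) ^ rn B.u2) - Real.log 2 ≤ _
    rw [one_div]
    linarith
  have l3 : Real.log B.u2 ≤ 0 := Real.log_nonpos p2.le u2
  have l4 : (a : ℝ) * Real.log 2 - n * Real.log 2 ≤ Real.log B.u1 := by
    have := Real.log_le_log hr0 r1
    rw [Real.log_div (by positivity) (by positivity), Real.log_pow, Real.log_pow] at this
    exact this
  have l5 : 0 ≤ (a : ℝ) * Real.log 2 := by positivity
  have m1 := mul_le_mul_of_nonneg_left l1 (by linarith : 0 ≤ 1 - lam)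
  have m2 := mul_le_mul_of_nonneg_left l2 (by linarith : 0 ≤ 3 + lam)
  have m3 : lam * (Real.log B.u2 - Real.log B.u1) ≤ lam * (n * Real.log 2) :=
    mul_le_mul_of_nonneg_left (by linarith) h0
  push_cast
  nlinarith

end fin

/-- **the glue** -/
theorem stK106_of {N : ℝ} (hN : 0 ≤ N)
    (H : ∀ lam : ℝ, 0 < lam → lam < 1 → ∀ ε : ℝ, 0 < ε → ∃ k : ℝ, 0 ≤ k ∧ FIXA lam N k (lam + ε)) : K.StK106 N := by
  refine ⟨2 * (44 * 44 ^ 2) ^ 2, by norm_num, fun β hβ ε hε => ?_⟩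
  -- parameters
  set lam : ℝ := min (β / 4) (1 / 2) with hlam
  have l0 : 0 < lam := lt_min (by linarith) (by norm_num)
  have l1 : lam < 1 := lt_of_le_of_lt (min_le_right _ _) (by norm_num)
  have l2 : lam ≤ β / 4 := min_le_left _ _
  obtain ⟨k, hk, hF⟩ := H lam l0 l1 (β / 4) (by linarith)
  obtain ⟨K0, hK⟩ := hF 44 (by norm_num) (ε / 2) (by linarith)
  -- `log (n + 1) ≤ small n + const`
  obtain ⟨K1, hK1⟩ : ∃ K1 : ℝ, ∀ n : ℕ, 2 * N * Real.log (n + 1) ≤ ε / 2 * n * Real.log 2 + K1 := by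
    have hx : 0 < ε / 2 * Real.log 2 := by
      have := Real.log_pos (by norm_num : (1 : ℝ) < 2)
      positivity
    have hN1 : (0 : ℝ) < 2 * N + 1 := by linarith
    set δ := ε / 2 * Real.log 2 / (2 * N + 1) with hδ
    have hδ0 : 0 < δ := by positivity
    refine ⟨(2 * N + 1) * (δ + |Real.log (1 / δ)|), fun n => ?_⟩
    have h1 : Real.log (n + 1) ≤ δ * (n + 1) + |Real.log (1 / δ)| := by
      have h2 : Real.log (δ * (n + 1)) ≤ δ * (n + 1) - 1 := Real.log_le_sub_one_of_pos (by positivity)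
      rw [Real.log_mul hδ0.ne' (by positivity)] at h2
      have h3 : -Real.log δ ≤ |Real.log (1 / δ)| := by
        rw [one_div, Real.log_inv]
        exact le_abs_self _
      linarith
    have h4 : 0 ≤ Real.log ((n : ℝ) + 1) := Real.log_nonneg (by linarith [(Nat.cast_nonneg n : (0 : ℝ) ≤ n)])
    calc 2 * N * Real.log (n + 1) ≤ (2 * N + 1) * Real.log (n + 1) :=
          mul_le_mul_of_nonneg_right (by linarith) h4
      _ ≤ (2 * N + 1) * (δ * (n + 1) + |Real.log (1 / δ)|) := mul_le_mul_of_nonneg_left h1 hN1.le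
      _ = (2 * N + 1) * δ * n + (2 * N + 1) * (δ + |Real.log (1 / δ)|) := by ring
      _ = ε / 2 * n * Real.log 2 + (2 * N + 1) * (δ + |Real.log (1 / δ)|) := by
          rw [hδ, mul_div_cancel₀ _ hN1.ne']
          ring
  refine ⟨|K0| + K1 + 1 + 4 * Real.log 2, ?_⟩
  intro Ω _ P l t W a n han h
  classical
  set l' : Ω → Ry := rp P n l with hl'
  set G : Ω → ℕ × ℕ := fun ω => (rn (W ω).u2, rn (W ω).u1) with hG
  have hpl : ∀ ω, 0 < P.w ω → pl n (l' ω) = pl n (l ω) := fun ω hω => rp_pl P n l hω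
  have hfn : ∀ ω ω', pl n (l ω) = pl n (l ω') → l' ω = l' ω' := fun ω ω' e => by
    show rpS P n l _ = rpS P n l _
    rw [e]
  have hry : ∀ ω, 0 < P.w ω → RyOk (l' ω) := fun ω hω => by
    obtain ⟨ω', g1, g2, _⟩ := rp_spec P n l hω
    rw [hl', g2]
    exact (h ω' g1).1
  -- labels
  have hlb : ∀ ω, 0 < P.w ω → LbOk 44 n a (rbx (W ω)) (l' ω) (t ω) ∧ (rbx (W ω)).u2 = (1 / 2 : ℝ) ^ (G ω).1 ∧
      (rbx (W ω)).u1 = (1 / 2 : ℝ) ^ (G ω).2 := fun ω hω =>
    lb_of han (h ω hω).2.1 (h ω hω).2.2.1 (hpl ω hω).symm (h ω hω).2.2.2.1 (h ω hω).2.2.2.2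
  -- the inequality for every value of the shape
  set Ex : ℕ × ℕ → ℝ := fun e => K.excF (2 * (44 * 44 ^ 2) ^ 2) (P.cond G e) (fun ω => pl n (l ω)) l ((1 / 2 : ℝ) ^ n)
    ((1 / 2 : ℝ) ^ (2 * n)) (fun _ => ()) with hEx
  have key : ∀ e ∈ img G, P.pr G e * (Stk.hc (P.cond G e) (fun ω => pl n (l ω)) (fun ω => (W ω, fl1 a (t ω))) -
      (P.cond G e).ex (fun ω => Real.log ((W ω).vol (2 ^ a / 2 ^ n) (2 ^ a / 2 ^ (2 * n))))) ≤
      P.pr G e * Ex e + P.pr G e * ((lam + β / 4 + ε / 2) * a * Real.log 2 + K0 + lam * n * Real.log 2 + 4 * Real.log 2 +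
        N * (a * Real.log 2)) -
      N * (P.pr G e * Stk.hc (P.cond G e) (fun ω => fl1 a (t ω)) (fun ω => pl n (l ω))) := by
    intro e _
    rcases (P.pr_nonneg G e).eq_or_lt with hz | hz
    · rw [← hz]
      simp
    · have hp : ∀ ω, 0 < (P.cond G e).w ω → 0 < P.w ω ∧ G ω = e := fun ω hω => cond_pos P G hz hω
      have f1 := hK Ω Unit (P.cond G e) l' t (fun _ => ()) n a e (fun ω => rbx (W ω)) han
        (fun ω hω => ⟨hry ω (hp ω hω).1, (h ω (hp ω hω).1).2.1, (h ω (hp ω hω).1).2.2.1⟩)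
        (fun ω hω => by
          have := hlb ω (hp ω hω).1
          rw [(hp ω hω).2] at this
          exact this)
      have f2 := side_b (c := 44) (by norm_num) l0.le hk (P.cond G e) l l' t e n
        (fun ω hω => ⟨(h ω (hp ω hω).1).2.1, (h ω (hp ω hω).1).2.2.1⟩) (fun ω hω => hpl ω (hp ω hω).1)
        (fun ω ω' _ _ e => hfn ω ω' e)
      -- the left side
      have f3 : Stk.hc (P.cond G e) (fun ω => pl n (l ω)) (fun ω => (W ω, fl1 a (t ω))) ≤
          Stk.hc (P.cond G e) l' (fun ω => (rbx (W ω), fl1 a (t ω), ())) := by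
        refine (hc_mono_left _ ?_).trans (hc_mono_right _ _ ?_)
        · intro ω ω' p p' e'
          show pl n (l ω) = pl n (l ω')
          rw [← hpl ω (hp ω p).1, ← hpl ω' (hp ω' p').1]
          simp only [Prod.mk.injEq] at e'
          rw [e'.1]
        · intro ω ω' p p' e'
          simp only [Prod.mk.injEq] at e' ⊢
          rw [e'.1]
          exact ⟨rfl, e'.2, trivial⟩
      have f4 : -(P.cond G e).ex (fun ω => Real.log ((W ω).vol (2 ^ a / 2 ^ n) (2 ^ a / 2 ^ (2 * n)))) ≤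
          -(P.cond G e).ex (fun ω => (3 + lam) * Real.log (rbx (W ω)).u2 + (1 - lam) * Real.log (rbx (W ω)).u1) +
            (3 * a * Real.log 2 - 4 * n * Real.log 2 + lam * n * Real.log 2 + 4 * Real.log 2) := by
        have g1 := (P.cond G e).ex_mono (f := fun ω => (3 + lam) * Real.log (rbx (W ω)).u2 + (1 - lam) * Real.log (rbx (W ω)).u1)
          (g := fun ω => Real.log ((W ω).vol (2 ^ a / 2 ^ n) (2 ^ a / 2 ^ (2 * n))) +
            (3 * a * Real.log 2 - 4 * n * Real.log 2 + lam * n * Real.log 2 + 4 * Real.log 2)) (fun ω hω => by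
          have := vol_a (h ω (hp ω hω).1).2.2.2.1 l0.le l1.le
          linarith)
        have g2 := (P.cond G e).ex_add (fun ω => Real.log ((W ω).vol (2 ^ a / 2 ^ n) (2 ^ a / 2 ^ (2 * n))))
          (fun _ => 3 * a * Real.log 2 - 4 * n * Real.log 2 + lam * n * Real.log 2 + 4 * Real.log 2)
        rw [(P.cond G e).ex_const] at g2
        linarith
      have f5 : Stk.hc (P.cond G e) (fun ω => fl1 a (t ω)) (fun ω => pl n (l ω)) ≤
          Stk.hc (P.cond G e) (fun ω => fl1 a (t ω)) (fun ω => (l' ω, ())) := by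
        refine hc_mono_right _ _ ?_
        intro ω ω' p p' e'
        simp only [Prod.mk.injEq] at e' ⊢
        exact ⟨hfn ω ω' e', trivial⟩
      unfold val Dd at f1
      beta_reduce at f1
      have f2' : XX 44 lam k 0 (P.cond G e) l' t (fun _ => ()) (fun _ => e) n 0 ≤ Ex e + 4 * n * Real.log 2 := f2
      have f6 := mul_le_mul_of_nonneg_left f5 hN
      have f7 : Stk.hc (P.cond G e) (fun ω => pl n (l ω)) (fun ω => (W ω, fl1 a (t ω))) -
          (P.cond G e).ex (fun ω => Real.log ((W ω).vol (2 ^ a / 2 ^ n) (2 ^ a / 2 ^ (2 * n)))) ≤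
          Ex e + ((lam + β / 4 + ε / 2) * a * Real.log 2 + K0 + lam * n * Real.log 2 + 4 * Real.log 2 +
            N * (a * Real.log 2)) -
          N * Stk.hc (P.cond G e) (fun ω => fl1 a (t ω)) (fun ω => pl n (l ω)) := by
        linarith
      have f8 := mul_le_mul_of_nonneg_left f7 hz.le
      refine f8.trans (le_of_eq ?_)
      ring
  have key2 := Finset.sum_le_sum key
  -- sums
  have s1 : ∑ e ∈ img G, P.pr G e * (Stk.hc (P.cond G e) (fun ω => pl n (l ω)) (fun ω => (W ω, fl1 a (t ω))) -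
      (P.cond G e).ex (fun ω => Real.log ((W ω).vol (2 ^ a / 2 ^ n) (2 ^ a / 2 ^ (2 * n))))) =
      Stk.hc P (fun ω => pl n (l ω)) (fun ω => ((W ω, fl1 a (t ω)), G ω)) -
        P.ex (fun ω => Real.log ((W ω).vol (2 ^ a / 2 ^ n) (2 ^ a / 2 ^ (2 * n)))) := by
    rw [hc_cond_sum P (fun ω => pl n (l ω)) (fun ω => (W ω, fl1 a (t ω))) G]
    simp only [mul_sub, Finset.sum_sub_distrib]
    congr 1
    unfold Law.ex
    simp only [Finset.mul_sum]
    rw [Finset.sum_comm]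
    refine Finset.sum_congr rfl fun ω _ => ?_
    rw [← cond_avg P G ω, Finset.sum_mul]
    exact Finset.sum_congr rfl fun e _ => by ring
  have s2 : Stk.hc P (fun ω => pl n (l ω)) (fun ω => ((W ω, fl1 a (t ω)), G ω)) =
      Stk.hc P (fun ω => pl n (l ω)) (fun ω => (W ω, fl1 a (t ω))) := by
    refine le_antisymm (hc_mono_right P _ ?_) (hc_mono_right P _ ?_)
    · intro ω ω' _ _ e
      exact (Prod.mk.inj e).1
    · intro ω ω' _ _ e
      simp only [Prod.mk.injEq] at e ⊢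
      refine ⟨e, ?_⟩
      show (rn (W ω).u2, rn (W ω).u1) = (rn (W ω').u2, rn (W ω').u1)
      rw [e.1]
  have s3 : ∑ e ∈ img G, P.pr G e * Ex e ≤ K.excF (2 * (44 * 44 ^ 2) ^ 2) P (fun ω => pl n (l ω)) l ((1 / 2 : ℝ) ^ n)
      ((1 / 2 : ℝ) ^ (2 * n)) (fun _ => ()) + 1 := by
    have g1 := exF_cond_sum (c := 2 * (44 * 44 ^ 2) ^ 2) (r := (1 / 2 : ℝ) ^ n) (H := (1 / 2 : ℝ) ^ (2 * n)) (by norm_num)
      (by positivity) (pow_le_one₀ (by norm_num) (by norm_num)) P (fun ω => pl n (l ω)) l G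
    refine g1.trans (add_le_add_left ?_ _)
    refine csSup_le (exF_mem (by norm_num) (by positivity) (pow_le_one₀ (by norm_num) (by norm_num)) P _ l G) ?_
    rintro v ⟨Ω', _, P', π, A, h1, h2, rfl⟩
    refine le_trans ?_ (exF_le (r := (1 / 2 : ℝ) ^ n) (H := (1 / 2 : ℝ) ^ (2 * n)) (by norm_num) (by positivity) P
      (fun ω => pl n (l ω)) l (fun _ => ()) h1 h2)
    refine sub_le_sub_right (hc_mono_right P' _ ?_) _
    intro ω ω' _ _ e
    simp only [Prod.mk.injEq] at e ⊢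
    exact ⟨e.1, trivial⟩
  have s4 : ∑ e ∈ img G, P.pr G e * Stk.hc (P.cond G e) (fun ω => fl1 a (t ω)) (fun ω => pl n (l ω)) =
      Stk.hc P (fun ω => fl1 a (t ω)) (fun ω => (pl n (l ω), G ω)) :=
    (hc_cond_sum P (fun ω => fl1 a (t ω)) (fun ω => pl n (l ω)) G).symm
  have s5 : Stk.hc P (fun ω => fl1 a (t ω)) (fun ω => pl n (l ω)) ≤
      Stk.hc P (fun ω => fl1 a (t ω)) (fun ω => (pl n (l ω), G ω)) + 2 * Real.log (n + 1) := by
    have g1 := hc_le_add' P (fun ω => fl1 a (t ω)) G (fun ω => pl n (l ω))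
    have g2 : Stk.hc P (fun ω => fl1 a (t ω)) (fun ω => (G ω, pl n (l ω))) ≤
        Stk.hc P (fun ω => fl1 a (t ω)) (fun ω => (pl n (l ω), G ω)) := by
      refine hc_mono_right P _ ?_
      intro ω ω' _ _ e
      simp only [Prod.mk.injEq] at e ⊢
      exact ⟨e.2, e.1⟩
    have g3 : Stk.hc P G (fun ω => pl n (l ω)) ≤ Real.log (((n + 1) * (n + 1) : ℕ) : ℝ) := by
      refine hc_le_log P G _ _ fun ω hω => ⟨Finset.range (n + 1) ×ˢ Finset.range (n + 1), ?_, ?_⟩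
      · rw [Finset.card_product, Finset.card_range]
      · intro ω' hω' _
        obtain ⟨⟨⟨b, R, e2, e1, hbR, hR⟩, _, _, _⟩, q2, q1⟩ := hlb ω' hω'
        have i2 : (G ω').1 = b := by
          rw [q2] at e2
          exact pow_right_injective₀ (by norm_num) (by norm_num) e2
        have i1 : (G ω').2 = R := by
          rw [q1] at e1
          exact pow_right_injective₀ (by norm_num) (by norm_num) e1
        rw [Finset.mem_product, Finset.mem_range, Finset.mem_range, i1, i2]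
        omega
    have g4 : Real.log (((n + 1) * (n + 1) : ℕ) : ℝ) = 2 * Real.log (n + 1) := by
      push_cast
      rw [Real.log_mul (by positivity) (by positivity)]
      ring
    linarith
  rw [Finset.sum_sub_distrib, Finset.sum_add_distrib, ← Finset.sum_mul, ← Finset.mul_sum, P.sum_pr_image G, s1, s2, s4,
    one_mul] at key2
  have s6 := mul_le_mul_of_nonneg_left s5 hN
  have s7 := hK1 n
  have hlog : 0 < Real.log 2 := Real.log_pos (by norm_num)
  have s8 : (lam + β / 4 + ε / 2) * a * Real.log 2 ≤ (lam + β / 4 + ε / 2) * n * Real.log 2 := by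
    have : (a : ℝ) ≤ n := by exact_mod_cast han
    have h0 : 0 ≤ lam + β / 4 + ε / 2 := by positivity
    exact mul_le_mul_of_nonneg_right (mul_le_mul_of_nonneg_left this h0) hlog.le
  have s9 : (2 * lam + β / 4) * (n * Real.log 2) ≤ β * (n * Real.log 2) :=
    mul_le_mul_of_nonneg_right (by linarith) (by positivity)
  have s10 := le_abs_self K0
  linarith

end Vale.Agent.P106.U.H712
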