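import Vale.Agent.P106.U.H712.Psi

/-!
# P106 / U / H712 / PFin : superseded by `H712/Psi` and helper61's `PSum` (helper712)
-/
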