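import Vale.Agent.P106.U.H712.Fam

/-!
# P106 / U / H712 / Place : the conclusion of `PF2` at one place of the selection, from the costs (helper712)

* **`place`** : for `Tc ≥ Tc0`, `h ≥ h0` : at a value of the word with 565's `Hyp`, `psX ≤ C` (339), `psR ≤ C` (715) and 61's cost
  `≤ 1 / 8` at the dyadic constants, the field `f2` holds (428's `mk2_vx_num`, 465's `mk2_f2`, 61's `sum_of`).
-/

set_option autoImplicit false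

namespace Vale.Agent.P106.U.H712.Fam

open Finset Vale.Agent.P127 Vale.Agent.P127.Stk Vale.Agent.P127.U Vale.Agent.P106.W
open Vale.Agent.P127.U.CellD (q2 rd Nb)
open Vale.Agent.P106.U Vale.Agent.P106.U.H565 Vale.Agent.P106.U.S3 Vale.Agent.P106.U.H449 Vale.Agent.P106.U.StripL
open Vale.Agent.P106.U.StripE Vale.Agent.P106.U.LinkR Vale.Agent.P106.U.InsL Vale.Agent.P106.U.InpC
open Vale.Agent.P106.U.H715.RegC Vale.Agent.P106.U.H715.RegR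
open Vale.Agent.P127.U.JSB

/-- **one place** -/
theorem place {K K1 δ1 C : ℝ} (hK : 648 ≤ K) (hK1 : 0 ≤ K1) (hδ : 0 < δ1) (hδ3 : 3 * δ1 ≤ 1) (hC : 0 ≤ C) (m Bi s : ℕ) (p : Par)
    (hm1 : 1 ≤ m) (hB : 1 ≤ p.B) (hg : 1 ≤ p.g) (hs : 1 ≤ s) (hD0 : 2 * p.B + 5 ≤ p.D0)
    (hps : p.B + 4 ≤ p.D0) (hβS : p.B ≤ p.βS) (hβ : p.βS ≤ p.βV) :
    ∃ Tc0 : ℕ, 0 < Tc0 ∧ ∀ Tc, Tc0 ≤ Tc → ∃ h0 : ℕ, ∀ (Ω : Type) [Fintype Ω] (w : Win Ω) (Rm k : ℕ) (z : Vl)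
      (hz : 0 < w.Q1.pr (w.Z k) z), w.K1 = K1 → w.c.I.δ1 = δ1 → w.c.I.m = m → w.c.I.B = Bi → w.s = s → h0 ≤ w.c.I.h →
      (∃ Ac rc, (w.cv k z).Hyp Rm w.cc Ac rc) → k < Tc → w.b0 + Tc * s ≤ nBl (δ1 / 2) w.c.I.h m →
      H339W.psX w.c.I.ha Tc s p.k1 p.D0 (nBl (δ1 / 2) w.c.I.h m) (w.c.XR w.E1) k z.2 ≤ C →
      psR w.c w.E1 p.B p.βV s Tc (nBl (δ1 / 2) w.c.I.h m) w.b0 k z.2 ≤ C →
      (∀ μ ≤ p.B, m ≤ μ → ∀ j : ℕ, (100 * K) ^ 20 ≤ (2 : ℝ) ^ j → (2 : ℝ) ^ j ≤ 2 * p.B →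
        ∃ (o : Fin 7 → ℝ) (o' : ℕ → ℝ), ((∀ k, 0 < o k ∧ o k ≤ 1) ∧ ∀ k, 0 < o' k ∧ o' k ≤ 1) ∧
          w.cst p μ (2 ^ j) o o' k z ≤ 1 / 8) →
      ∃ (ξ : Type) (X : ℕ → Ω → ξ) (hX : ∀ i ω ω', X (i + 1) ω = X (i + 1) ω' → X i ω = X i ω'),
        let C := w.c.c2 w.hm w.cc w.gd w.cn w.in0 w.hc w.s w.bt w.b0 k z hz w.oO w.oK w.oG w.oN
        (∀ i ≤ C.run.n + C.num.J, Fn C.run.Q (X i) C.run.W') ∧
        (∀ i ≤ C.run.n + C.num.J, Fn C.run.Q (X i) (C.run.Z i)) ∧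
        ∃ (π : Type) (bS bV : ℕ) (F : S3.Pf (C.run.ext X hX) π) (Vs Xs : Finset ℕ),
          S3.F2 (C.run.ext X hX) C.num K p.B bS bV F Vs Xs := by
  obtain ⟨Tc0, hT0, HT⟩ := C1.mk2_vx_num hK1 hδ hδ3 hC m p.B Bi p.g p.k1 p.D0 s p.βS p.βV 4 hm1 hB hg hs hD0 hps hβS hβ
  refine ⟨Tc0, hT0, fun Tc hTc => ?_⟩
  obtain ⟨h0, Hh⟩ := HT Tc hTc
  refine ⟨h0, ?_⟩
  intro Ω _ w Rm k z hz eK eδ em eB es hh0 hH hk hb hX hR hsum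
  subst es
  obtain ⟨Ac, rc, H⟩ := hH
  rw [w.cv_eq hz] at H
  have hw : ∀ ω, 0 < w.Q1.w ω → w.Z k ω = z → w.c.Zr w.hm w.cc w.s w.Q1 w.b0 k ω = z.2 := by
    intro ω _ he
    rw [← he]
    rfl
  obtain ⟨-, v1, v2, v3⟩ := Hh Ω (w.c.c1 w.gd w.cn) w.hm w.cc w.in0 w.hc w.b0 k Vl (w.Z k) z hz w.oO w.oK w.oG w.oN Rm Ac rc
    z.2 eK eδ em eB hh0 H hw hk hb hX hR
  refine C1.mk2_f2 (K := K) H (fun ω ω' hω hω' he a ha => ?_) (by linarith) v1 v2 v3 ?_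
  · exact w.Z_rt he (k := k) (j := k) le_rfl ha
  · have hK0 : (1 : ℝ) ≤ K := by linarith
    refine H61.Ext2.sum_of
      (R := (w.c.c2 w.hm w.cc w.gd w.cn w.in0 w.hc w.s w.bt w.b0 k z hz w.oO w.oK w.oG w.oN).erun w.hm) hK0 ?_
    intro μ hμ hm j h1 h2
    obtain ⟨o, o', ho, hc⟩ := hsum μ hμ (by rw [← em]; exact hm) j h1 h2
    refine ⟨o, o', ho, ?_⟩
    rw [w.cst_eq hz ⟨v1, v2⟩] at hc
    exact hc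

end Vale.Agent.P106.U.H712.Fam
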