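import Vale.Agent.P106.U.H661.SDef
import Vale.Agent.P106.U.H404.FinR
import Vale.Agent.P106.U.H122.LastN
import Vale.Agent.P106.U.H101.OffD

/-!
# P106 / U / H712 / SLast : row [S], the last sum (helper712)

* `SWin` : the window theorem of row [S] (helper661) : telescope part, far part (`frS`), near part (square root of the exceptional
  sums of the path).
* `numS` : the numbers;  `near_le` : the near part by [OFF].
* **`rowS_of : SWin → RowS FS`**.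
-/

set_option autoImplicit false

namespace Vale.Agent.P106.U.H712.SLast

open Finset Vale.Agent.P127 Vale.Agent.P127.Stk Vale.Agent.P127.U Vale.Agent.P106.W
open Vale.Agent.P127.U.CellD (q2 q2_pos q2_le q2_add)
open Vale.Agent.P106.U Vale.Agent.P106.U.H449
open Vale.Agent.P106.U.H565 Vale.Agent.P106.U.H823.NumW
open Vale.Agent.P106.U.S3 (Run Pf)
open Vale.Agent.P106.U.H712.Fam (Win Vl Pl)
open Vale.Agent.P106.U.H61.Ext2 Vale.Agent.P106.U.H61.PS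
open Vale.Agent.P106.U.H661.SD
open Vale.Agent.P106.U.H404.FinR Vale.Agent.P106.U.H122.LastN

/-- **the window theorem of row [S]** -/
def SWin : Prop :=
  ∀ σ : S5.Cst, σ.Ok → ∀ (K Cψ cc : ℝ) (J M Md : ℕ), Cnd K Cψ cc J M Md →
    ∃ (A : ℕ → ℕ → ℕ → ℕ → ℕ → ℕ → ℝ) (c1 c2 : ℝ), (∀ m B g D0 s L, 0 ≤ A m B g D0 s L) ∧ 0 ≤ c1 ∧ 0 ≤ c2 ∧
    Evp fun p X0 R0 h0 => ∀ (Ω : Type) [Fintype Ω] (x : Ctx σ cc J M Md p X0 R0 h0 Ω) (oo : Oo),
      ∀ μ ≤ p.B, p.m ≤ μ → ∀ K' : ℝ, (100 * K) ^ 20 ≤ K' → ∀ (o : Fin 7 → ℝ) (o' : ℕ → ℝ),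
      ((∀ k, 0 < o k ∧ o k ≤ 1) ∧ ∀ k, 0 < o' k ∧ o' k ≤ 1) → ∀ d ≤ p.B,
      x.mean oo p.Tc (fun w k z => if p.k1 ≤ k then
        sS (w.R k z) (w.nm k z) p.B (w.bS p.fp k) (w.Vs p.fp k z) (w.Xs p.fp k z) μ o d else 0) ≤
        x.nB * ((x.c.I.h / p.m) * (A p.m p.B p.g p.D0 p.s p.L * ((p.Tc : ℝ) / p.k1 + p.k1))) +
        c1 * ∑ b0 ∈ x.bs, ∑ kk ∈ range p.Tc, x.Q1.ex (frS (x.win oo b0) p.fp (βr p) kk) +
        c2 * Real.sqrt (x.nB * p.Tc * (x.c.I.h / p.m)) *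
          Real.sqrt (x.mean oo (2 * p.Tc) (fun w k z => sOff (w.R k z) (w.nm k z) (w.bS p.fp k) μ K' o))

/-- the numbers of the last sum -/
structure NumS (δ1 : ℝ) (J : ℕ) (A : ℕ → ℕ → ℕ → ℕ → ℕ → ℕ → ℝ) (c1 CN cf : ℝ) (p : Par) (h0 : ℕ) : Prop where
  m1 : 1 ≤ p.m
  B1 : 1 ≤ p.B
  T1 : 1 ≤ p.Tc
  k1 : 1 ≤ p.k1
  q : 2 * CN * q2 (p.m / 16) ≤ 5 * δ1
  t : ((p.B : ℝ) + 1) ^ 4 * p.B * (1 / p.m * (A p.m p.B p.g p.D0 p.s p.L * (1 / p.k1 + p.k1 / p.Tc)) +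
    c1 * (1 / p.m * ((p.B + 1) * (cf * q2 (p.m * (p.g / (4 * J))))))) ≤ 1
  h : p.m ≤ h0
  hs : p.Tc * p.s ≤ h0

theorem exists_q2 (X ε : ℝ) (hε : 0 < ε) (hX : 0 ≤ X) : ∃ t : ℕ, ∀ n : ℕ, t ≤ n → X * q2 n ≤ ε := by
  obtain ⟨t, ht⟩ := exists_pow_lt_of_lt_one (show 0 < ε / (X + 1) by positivity) (show (1 / 2 : ℝ) < 1 by norm_num)
  refine ⟨t, fun n hn => ?_⟩
  have h1 : q2 n ≤ q2 t := q2_le hn
  have h2 : q2 t = (1 / 2 : ℝ) ^ t := rfl
  have h3 : q2 n ≤ ε / (X + 1) := by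
    rw [← h2] at ht
    linarith
  have h4 := mul_le_mul_of_nonneg_left h3 hX
  have h5 : X * (ε / (X + 1)) ≤ ε := by
    rw [mul_div_assoc', div_le_iff₀ (by positivity)]
    nlinarith
  linarith

theorem numS {δ1 : ℝ} (hδ : 0 < δ1) {J : ℕ} (hJ : 1 ≤ J) {A : ℕ → ℕ → ℕ → ℕ → ℕ → ℕ → ℝ} (hA : ∀ m B g D0 s L, 0 ≤ A m B g D0 s L)
    {c1 CN cf : ℝ} (hc1 : 0 ≤ c1) (hCN : 0 ≤ CN) (hcf : 0 ≤ cf) :
    Evp fun p _ _ h0 => NumS δ1 J A c1 CN cf p h0 := by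
  obtain ⟨t0, ht0⟩ := exists_q2 (2 * CN) (5 * δ1) (by positivity) (by positivity)
  refine ⟨max 1 (16 * t0), fun m hm => ⟨1, fun B hB => ?_⟩⟩
  have hm1 : 1 ≤ m := (le_max_left _ _).trans hm
  have hm2 : t0 ≤ m / 16 := by
    have := (le_max_right 1 (16 * t0)).trans hm
    omega
  have hmr : (1 : ℝ) ≤ m := by exact_mod_cast hm1
  have hmi : (1 : ℝ) / m ≤ 1 := by
    rw [div_le_one (by linarith)]
    exact hmr
  set X : ℝ := ((B : ℝ) + 1) ^ 4 * B with hX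
  have hX0 : 0 ≤ X := by rw [hX]; positivity
  obtain ⟨t1, ht1⟩ := exists_q2 (X * (c1 * ((B + 1) * cf))) (1 / 3) (by norm_num) (by positivity)
  refine ⟨4 * J * t1, fun g hg => ⟨0, fun D0 _ s L hs hL _ => ?_⟩⟩
  obtain ⟨k0, hk0⟩ := exists_nat_gt (3 * X * A m B g D0 s L)
  refine ⟨k0 + 1, fun k1 hk1 => ?_⟩
  have hk1' : (k0 : ℝ) + 1 ≤ k1 := by exact_mod_cast hk1
  have hk0' : (0 : ℝ) ≤ k0 := Nat.cast_nonneg _
  obtain ⟨T0, hT0⟩ := exists_nat_gt (3 * X * A m B g D0 s L * k1)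
  refine ⟨T0 + 1, fun Tc hTc => ?_⟩
  have hT' : (T0 : ℝ) + 1 ≤ Tc := by exact_mod_cast hTc
  have hT0' : (0 : ℝ) ≤ T0 := Nat.cast_nonneg _
  refine ⟨0, 0, max m (Tc * s), fun X0 R0 h0 _ _ hh => ?_⟩
  have hA0 := hA m B g D0 s L
  refine ⟨hm1, hB, by show 1 ≤ Tc; omega, by show 1 ≤ k1; omega, ht0 _ hm2, ?_, (le_max_left _ _).trans hh,
    (le_max_right _ _).trans hh⟩
  show ((B : ℝ) + 1) ^ 4 * B * (1 / m * (A m B g D0 s L * (1 / k1 + k1 / Tc)) +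
    c1 * (1 / m * ((B + 1) * (cf * q2 (m * (g / (4 * J))))))) ≤ 1
  rw [← hX]
  have hk1p : (0 : ℝ) < k1 := by linarith
  have hTp : (0 : ℝ) < Tc := by linarith
  have e1 : X * (A m B g D0 s L * (1 / k1)) ≤ 1 / 3 := by
    rw [← mul_assoc, mul_one_div, div_le_iff₀ hk1p]
    linarith
  have e2 : X * (A m B g D0 s L * (k1 / Tc)) ≤ 1 / 3 := by
    rw [← mul_assoc, mul_div_assoc', div_le_iff₀ hTp]
    linarith
  have e3 : X * (c1 * ((B + 1) * cf)) * q2 (m * (g / (4 * J))) ≤ 1 / 3 := by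
    refine ht1 _ ?_
    have h1 : t1 ≤ g / (4 * J) := by
      rw [Nat.le_div_iff_mul_le (by omega)]
      calc t1 * (4 * J) = 4 * J * t1 := by ring
        _ ≤ g := hg
    calc t1 ≤ 1 * (g / (4 * J)) := by omega
      _ ≤ m * (g / (4 * J)) := Nat.mul_le_mul_right _ hm1
  have q0 := (q2_pos (m * (g / (4 * J)))).le
  have e4 : X * (1 / m * (A m B g D0 s L * (1 / k1 + k1 / Tc)) + c1 * (1 / m * ((B + 1) * (cf * q2 (m * (g / (4 * J))))))) =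
      1 / m * (X * (A m B g D0 s L * (1 / k1)) + X * (A m B g D0 s L * (k1 / Tc)) +
        X * (c1 * ((B + 1) * cf)) * q2 (m * (g / (4 * J)))) := by ring
  rw [e4]
  have e5 : 0 ≤ X * (A m B g D0 s L * (1 / k1)) + X * (A m B g D0 s L * (k1 / Tc)) +
        X * (c1 * ((B + 1) * cf)) * q2 (m * (g / (4 * J))) := by positivity
  have e6 := mul_le_mul_of_nonneg_right hmi e5
  linarith

section near

variable {σ : S5.Cst} {cc : ℝ} {J M Md : ℕ} {p : Par} {X0 R0 h0 : ℕ} {Ω : Type} [Fintype Ω]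
  (x : Ctx σ cc J M Md p X0 R0 h0 Ω) (oo : Oo)

theorem mean_mul {T : ℕ} (c : ℝ) (f : Win Ω → ℕ → Vl → ℝ) :
    x.mean oo T (fun w k z => c * f w k z) = c * x.mean oo T f := by
  unfold Ctx.mean
  rw [Finset.mul_sum]
  exact Finset.sum_congr rfl fun b _ => av_mul _ _ _ _

theorem mean_sum {ι : Type*} (S : Finset ι) {T : ℕ} (f : ι → Win Ω → ℕ → Vl → ℝ) :
    x.mean oo T (fun w k z => ∑ i ∈ S, f i w k z) = ∑ i ∈ S, x.mean oo T (f i) := by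
  unfold Ctx.mean
  rw [Finset.sum_comm]
  exact Finset.sum_congr rfl fun b _ => av_sum _ _ _ _

/-- the exceptional sums of the path, in the mean -/
theorem off_le {μ : ℕ} {K' : ℝ} (hK : 0 < K') {o : Fin 7 → ℝ} {o' : ℕ → ℝ} (hO : Off x oo μ K' o o')
    (h1 : (1 : ℝ) ≤ x.c.I.h / x.c.I.m) :
    x.mean oo (2 * p.Tc) (fun w k z => sOff (w.R k z) (w.nm k z) (w.bS p.fp k) μ K' o) ≤
      600 * ((3 + 2 * (σ.K1 + 1 / 2)) * (x.c.I.h / x.c.I.m)) * K' * q2 (μ / 4) ^ 2 * (x.nB * p.Tc) := by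
  have q4 := q2_pos (μ / 4)
  set CU : ℝ := (3 + 2 * (σ.K1 + 1 / 2)) * (x.c.I.h / x.c.I.m) with hCU
  have a1 : x.mean oo (2 * p.Tc) (fun w k z => sOff (w.R k z) (w.nm k z) (w.bS p.fp k) μ K' o) ≤
      x.mean oo (2 * p.Tc) (fun w k z => (K' ^ 2 * CU * q2 (μ / 4)) * H101.Off.o4 (w.R k z) (w.nm k z) p.B (w.bS p.fp k)
        (w.bV p.fp k) (w.F p.fp k z) (H101.Off.allV (w.R k z)) ∅ μ K' o o') := by
    refine x.mean_mono' fun b0 hb k hk z hz hg => ?_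
    have b1 := (H101.Off.o4_ge (R := (x.win oo b0).R k z) (p := (x.win oo b0).nm k z) (B := p.B) (bS := (x.win oo b0).bS p.fp k)
      (bV := (x.win oo b0).bV p.fp k) (F := (x.win oo b0).F p.fp k z) (Vs := H101.Off.allV ((x.win oo b0).R k z)) (Xs := ∅)
      (μ := μ) (K' := K') (o := o) (o' := o') hK le_rfl).1
    refine b1.trans ?_
    have b2 := H101.Off.o4_nonneg ((x.win oo b0).R k z) ((x.win oo b0).nm k z) p.B ((x.win oo b0).bS p.fp k)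
      ((x.win oo b0).bV p.fp k) ((x.win oo b0).F p.fp k z) (H101.Off.allV ((x.win oo b0).R k z)) ∅ μ o o' hK
    rw [mul_comm (K' ^ 2 * CU * q2 (μ / 4))]
    refine mul_le_mul_of_nonneg_left ?_ b2
    have b3 := n_up (x.win oo b0) (show 2 ≤ 4 by norm_num) h1 k z
    unfold tD
    have b4 : (((0 : ℕ) : ℝ) + 1) ^ 2 = 1 := by norm_num
    rw [b4, mul_one]
    refine mul_le_mul_of_nonneg_right ?_ q4.le
    exact mul_le_mul_of_nonneg_left b3 (by positivity)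
  refine a1.trans ?_
  rw [mean_mul x oo (K' ^ 2 * CU * q2 (μ / 4))]
  have a2 := hO.avg
  have hCU0 : 0 ≤ CU ∨ CU < 0 := le_or_gt 0 CU
  rcases hCU0 with hCU0 | hCU0
  · have a3 := mul_le_mul_of_nonneg_left a2 (show 0 ≤ K' ^ 2 * CU * q2 (μ / 4) by positivity)
    refine a3.trans (le_of_eq ?_)
    field_simp
  · -- impossible sign, the mean vanishes or the bound is trivial
    have a4 : 0 ≤ x.mean oo (2 * p.Tc) (fun w k z => H101.Off.o4 (w.R k z) (w.nm k z) p.B (w.bS p.fp k)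
        (w.bV p.fp k) (w.F p.fp k z) (H101.Off.allV (w.R k z)) ∅ μ K' o o') :=
      x.mean_nonneg fun w k z => H101.Off.o4_nonneg _ _ _ _ _ _ _ _ _ _ _ hK
    exfalso
    have b3 := n_up (x.win oo 0) (show 2 ≤ 4 by norm_num) h1 0 ((x.win oo 0).Z 0 (x.win oo 0).pt)
    have b5 : ((x.win oo 0).R 0 ((x.win oo 0).Z 0 (x.win oo 0).pt)).n + (((x.win oo 0).nm 0 ((x.win oo 0).Z 0 (x.win oo 0).pt)).J : ℝ) + 1 ≤ CU := b3
    have b6 : (0 : ℝ) ≤ ((x.win oo 0).R 0 ((x.win oo 0).Z 0 (x.win oo 0).pt)).n := Nat.cast_nonneg _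
    have b7 : (0 : ℝ) ≤ ((x.win oo 0).nm 0 ((x.win oo 0).Z 0 (x.win oo 0).pt)).J := Nat.cast_nonneg _
    linarith

end near

/-- **row [S]** from the window theorem -/
theorem rowS_of (hS : SWin) : RowS FS := by
  classical
  intro σ hσ K Cψ cc J M Md hC
  obtain ⟨A, c1, c2, hA, hc1, hc2, hE⟩ := hS σ hσ K Cψ cc J M Md hC
  have hK10 := hσ.bs.K10
  have hδ := hσ.δ0
  have hJ1 : 1 ≤ J := by
    have := hC.J3
    omega
  set CU : ℝ := 3 + 2 * (σ.K1 + 1 / 2) with hCU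
  have hCU0 : 0 < CU := by rw [hCU]; linarith
  set CN : ℝ := c2 * Real.sqrt (600 * CU) with hCN
  have hCN0 : 0 ≤ CN := mul_nonneg hc2 (Real.sqrt_nonneg _)
  have hcf : 0 ≤ cF σ J := by
    unfold cF
    positivity
  refine (hE.and (numS hδ hJ1 hA hc1 hCN0 hcf)).mono ?_
  rintro p X0 R0 h0 ⟨hw, hn⟩ Ω _ x oo hFS μ hμ hm j hj1 hj2 o o' hO
  have hm1 := hn.m1
  have hB1 := hn.B1
  have hmr : (0 : ℝ) < p.m := by exact_mod_cast hm1
  have hBr : (0 : ℝ) < p.B := by exact_mod_cast hB1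
  have hTr : (0 : ℝ) < p.Tc := by exact_mod_cast hn.T1
  have hkr : (0 : ℝ) < p.k1 := by exact_mod_cast hn.k1
  have hhm : p.m ≤ x.c.I.h := hn.h.trans x.hh
  have hh0 : 0 < x.c.I.h := by omega
  have hhr : (0 : ℝ) < x.c.I.h := by exact_mod_cast hh0
  have em : x.c.I.m = p.m := x.em
  have hH1 : (1 : ℝ) ≤ x.c.I.h / x.c.I.m := by
    rw [em, le_div_iff₀ hmr, one_mul]
    exact_mod_cast hhm
  set H : ℝ := (x.c.I.h : ℝ) / p.m with hH
  have hHm : (x.c.I.h : ℝ) / x.c.I.m = H := by rw [em]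
  have hH0 : 0 < H := by rw [hH]; positivity
  set K' : ℝ := (2 : ℝ) ^ j with hK'
  have hK0 : 0 < K' := by rw [hK']; positivity
  set AA : ℝ := x.nB * p.Tc with hAA
  have hAA0 : 0 ≤ AA := by rw [hAA]; positivity
  -- the constants of the numbers
  have hC1 : (1 : ℝ) ≤ x.c.I.C1 := by
    rw [x.eC]
    unfold S5.Bs.C1
    have h1 := hσ.bs.lam0
    have : 0 ≤ 1000 / σ.lam := by positivity
    linarith
  have hδ8 : 8 * x.c.I.δ1 ≤ 1 / 4 := by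
    rw [x.eδ]
    have h1 := hσ.δθ
    have h2 := hσ.θ4
    linarith
  have hδn : 0 ≤ x.c.I.δ1 := by rw [x.eδ]; exact hδ.le
  -- the lower bounds
  have hFl : ∀ d, 0 < Fl x.c.I.h p.B p.m μ K' σ.δ1 d := fun d => Fl_pos hK0 hδ hh0 hm1
  have hFb : ∀ (b0 k : ℕ) (z : Vl) (d : ℕ), Fl x.c.I.h p.B p.m μ K' σ.δ1 d ≤
      S3.F2b ((x.win oo b0).R k z) ((x.win oo b0).nm k z) p.B μ K' d := by
    intro b0 k z d
    have h1 := F2b_low (x.win oo b0) hC1 hδn hδ8 (B := p.B) (μ := μ) (d := d) hK0.le k z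
    have e1 : (x.win oo b0).c.I.m = p.m := em
    have e2 : (x.win oo b0).c.I.δ1 = σ.δ1 := x.eδ
    rw [e1, e2] at h1
    exact h1
  -- step A
  obtain ⟨G, hG⟩ : ∃ G : ℕ → Win Ω → ℕ → Vl → ℝ, G = fun d w k z => if p.k1 ≤ k then
      sS (w.R k z) (w.nm k z) p.B (w.bS p.fp k) (w.Vs p.fp k z) (w.Xs p.fp k z) μ o d else 0 := ⟨_, rfl⟩
  have hA1 : x.mean oo p.Tc (fun w k z => if p.k1 ≤ k then ∑ d ∈ range (p.B + 1),
      cS (w.R k z) (w.nm k z) p.B (w.bS p.fp k) (w.Vs p.fp k z) (w.Xs p.fp k z) μ K' o d else 0) ≤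
      ∑ d ∈ range (p.B + 1), x.mean oo p.Tc (G d) / Fl x.c.I.h p.B p.m μ K' σ.δ1 d := by
    have h1 : x.mean oo p.Tc (fun w k z => if p.k1 ≤ k then ∑ d ∈ range (p.B + 1),
        cS (w.R k z) (w.nm k z) p.B (w.bS p.fp k) (w.Vs p.fp k z) (w.Xs p.fp k z) μ K' o d else 0) ≤
        x.mean oo p.Tc (fun w k z => ∑ d ∈ range (p.B + 1), (1 / Fl x.c.I.h p.B p.m μ K' σ.δ1 d) * G d w k z) := by
      refine x.mean_mono' fun b0 _ k _ z _ _ => ?_
      rw [hG]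
      beta_reduce
      split_ifs with hk
      · refine Finset.sum_le_sum fun d _ => ?_
        unfold cS
        have hs0 : 0 ≤ sS ((x.win oo b0).R k z) ((x.win oo b0).nm k z) p.B ((x.win oo b0).bS p.fp k)
          ((x.win oo b0).Vs p.fp k z) ((x.win oo b0).Xs p.fp k z) μ o d := sS_nonneg
        rw [one_div, inv_mul_eq_div]
        exact div_le_div_of_nonneg_left hs0 (hFl d) (hFb b0 k z d)
      · exact Finset.sum_nonneg fun d _ => by rw [mul_zero]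
    refine h1.trans (le_of_eq ?_)
    rw [mean_sum x oo (range (p.B + 1)) (fun d w k z => (1 / Fl x.c.I.h p.B p.m μ K' σ.δ1 d) * G d w k z)]
    refine Finset.sum_congr rfl fun d _ => ?_
    rw [mean_mul x oo (1 / Fl x.c.I.h p.B p.m μ K' σ.δ1 d) (G d)]
    ring
  -- step B
  set Y : ℝ := x.mean oo (2 * p.Tc) (fun w k z => sOff (w.R k z) (w.nm k z) (w.bS p.fp k) μ K' o) with hY
  have hY1 : Y ≤ 600 * (CU * H) * K' * q2 (μ / 4) ^ 2 * AA := by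
    have := off_le x oo hK0 hO hH1
    rw [hHm] at this
    exact this
  set T0 : ℝ := H * (A p.m p.B p.g p.D0 p.s p.L * (1 / p.k1 + p.k1 / p.Tc)) +
    c1 * (H * ((p.B + 1) * (cF σ J * q2 (p.m * (p.g / (4 * J)))))) with hT0
  set Nr : ℝ := c2 * Real.sqrt (AA * H) * Real.sqrt Y with hNr
  have hB2 : ∀ d ≤ p.B, x.mean oo p.Tc (G d) ≤ T0 * AA + Nr := by
    intro d hd
    have h1 := hw Ω x oo μ hμ hm K' hj1 o o' hO.o1 d hd
    have h2 : ∑ b0 ∈ x.bs, ∑ kk ∈ range p.Tc, x.Q1.ex (frS (x.win oo b0) p.fp (βr p) kk) ≤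
      AA * (H * ((p.B + 1) * (cF σ J * q2 (p.m * (p.g / (4 * J)))))) := hFS
    have h3 := mul_le_mul_of_nonneg_left h2 hc1
    rw [hG]
    refine h1.trans ?_
    have h4 : x.nB * ((x.c.I.h / p.m) * (A p.m p.B p.g p.D0 p.s p.L * ((p.Tc : ℝ) / p.k1 + p.k1))) =
        H * (A p.m p.B p.g p.D0 p.s p.L * (1 / p.k1 + p.k1 / p.Tc)) * AA := by
      rw [hAA, ← hH]
      field_simp
    rw [h4]
    have h5 : T0 * AA = H * (A p.m p.B p.g p.D0 p.s p.L * (1 / p.k1 + p.k1 / p.Tc)) * AA +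
        c1 * (AA * (H * ((p.B + 1) * (cF σ J * q2 (p.m * (p.g / (4 * J))))))) := by
      rw [hT0]
      ring
    rw [h5]
    have h6 : c2 * Real.sqrt (x.nB * p.Tc * (x.c.I.h / p.m)) * Real.sqrt (x.mean oo (2 * p.Tc)
        (fun w k z => sOff (w.R k z) (w.nm k z) (w.bS p.fp k) μ K' o)) = Nr := by
      rw [hNr, hAA, hH, hY]
    rw [h6]
    linarith
  -- the near part
  have hNr1 : Nr ≤ CN * Real.sqrt K' * q2 (μ / 4) * ((x.c.I.h : ℝ) / p.m) * AA := by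
    rw [← hH, hNr, hCN]
    have q4 := q2_pos (μ / 4)
    have h1 : Real.sqrt (AA * H) * Real.sqrt Y ≤ Real.sqrt (600 * CU) * Real.sqrt K' * (q2 (μ / 4) * H * AA) := by
      rw [← Real.sqrt_mul (by positivity), ← Real.sqrt_mul (by positivity)]
      have h2 : AA * H * Y ≤ 600 * CU * K' * (q2 (μ / 4) * H * AA) ^ 2 := by
        have h3 := mul_le_mul_of_nonneg_left hY1 (show 0 ≤ AA * H by positivity)
        refine h3.trans (le_of_eq ?_)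
        ring
      refine (Real.sqrt_le_sqrt h2).trans (le_of_eq ?_)
      rw [Real.sqrt_mul (by positivity), Real.sqrt_sq (by positivity)]
    have h2 := mul_le_mul_of_nonneg_left h1 hc2
    calc c2 * Real.sqrt (AA * H) * Real.sqrt Y = c2 * (Real.sqrt (AA * H) * Real.sqrt Y) := by ring
      _ ≤ c2 * (Real.sqrt (600 * CU) * Real.sqrt K' * (q2 (μ / 4) * H * AA)) := h2
      _ = _ := by ring
  -- the sum over the distances
  refine hA1.trans ?_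
  have hC2 : ∑ d ∈ range (p.B + 1), x.mean oo p.Tc (G d) / Fl x.c.I.h p.B p.m μ K' σ.δ1 d ≤
      ∑ d ∈ range (p.B + 1), (T0 * AA) / Fl x.c.I.h p.B p.m μ K' σ.δ1 d +
        ∑ d ∈ range (p.B + 1), Nr / Fl x.c.I.h p.B p.m μ K' σ.δ1 d := by
    rw [← Finset.sum_add_distrib]
    refine Finset.sum_le_sum fun d hd => ?_
    rw [← add_div]
    exact div_le_div_of_nonneg_right (hB2 d (by have := Finset.mem_range.1 hd; omega)) (hFl d).le
  refine hC2.trans ?_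
  have hT00 : 0 ≤ T0 := by
    rw [hT0]
    have := hA p.m p.B p.g p.D0 p.s p.L
    have := (q2_pos (p.m * (p.g / (4 * J)))).le
    positivity
  have h1 := fin_tel (h := x.c.I.h) (B := p.B) (m := p.m) (μ := μ) (K' := K') (δ1 := σ.δ1) (A := AA) (T0 := T0) hK0 hδ hh0 hB1
    hAA0 hT00 (fun _ => T0 * AA) (fun _ _ => le_rfl) (by
      have h2 := mul_le_mul_of_nonneg_right hn.t hhr.le
      rw [one_mul] at h2
      refine le_trans (le_of_eq ?_) h2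
      rw [hT0, hH]
      field_simp)
  have h2 := fin_near (h := x.c.I.h) (B := p.B) (m := p.m) (μ := μ) (j := j) (K' := K') (δ1 := σ.δ1) (CN := CN) (A := AA)
    (Nr := Nr) hK' hδ hh0 hm1 hm hCN0 hAA0 hNr1 hn.q
  have h3 : (x.nB : ℝ) * p.Tc * tgt p.B μ j = AA * (1 / ((p.B : ℝ) + 1) ^ 3) + AA * (q2 (μ / 16) * q2 (j / 4)) := by
    unfold tgt
    rw [hAA]
    ring
  rw [h3]
  linarith

end Vale.Agent.P106.U.H712.SLast
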