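import Vale.Agent.P106.U.H661.SLx
import Vale.Agent.P106.U.H715.UndS
import Vale.Agent.P106.U.H711.FarW
import Vale.Agent.P106.U.H712.SLast

/-!
# P106 / U / H712 / SNum : the numbers of the window theorem of row [S] (helper712)

* `one_nFew`, `lF` : the number of values and its logarithm.
* **`NuS`, `nuS`** : the conditions of 661's `lab_x`, eventually.
* **`telN`** : macroscopic terms;  **`nearN`** : the near term.
-/

set_option autoImplicit false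

namespace Vale.Agent.P106.U.H712.SNum

open Finset Vale.Agent.P127 Vale.Agent.P127.Stk Vale.Agent.P127.U Vale.Agent.P106.W
open Vale.Agent.P127.U.CellD (q2 q2_pos q2_le q2_add)
open Vale.Agent.P106.U Vale.Agent.P106.U.H449
open Vale.Agent.P106.U.H565 Vale.Agent.P106.U.H823.NumW
open Vale.Agent.P106.U.S3 (Run Pf)
open Vale.Agent.P106.U.H712.Fam (Win Vl Pl)
open Vale.Agent.P106.U.H61.Ext2 Vale.Agent.P106.U.H61.PS
open Vale.Agent.P106.U.H661.SD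
open Vale.Agent.P106.U.H523.FewS (nFew nM nA)

theorem one_nFew (m B μ : ℕ) : 1 ≤ nFew m B μ := by
  unfold nFew Vale.Agent.P106.U.H661.FewX.nLTh
  have h1 : 1 ≤ nA m B := Nat.one_le_pow _ _ (Nat.pow_pos (by omega))
  have h2 : ∀ M : ℕ, 1 ≤ ((2 * (M + 1) + 1) ^ 5) ^ B := fun M => Nat.one_le_pow _ _ (Nat.pow_pos (by omega))
  exact Nat.mul_pos (Nat.mul_pos (h2 _) h1) (by omega)

/-- logarithm of the number of values, all margins -/
noncomputable def lF (m B : ℕ) : ℝ := ∑ μ ∈ range (B + 1), Real.log (nFew m B μ)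

theorem lF_nonneg (m B : ℕ) : 0 ≤ lF m B := Finset.sum_nonneg fun _ _ => Real.log_natCast_nonneg _

theorem le_lF {m B μ : ℕ} (h : μ ≤ B) : Real.log (nFew m B μ) ≤ lF m B :=
  Finset.single_le_sum (f := fun μ => Real.log (nFew m B μ)) (fun _ _ => Real.log_natCast_nonneg _)
    (Finset.mem_range.2 (Nat.lt_succ_of_le h))

/-- the conditions on the numbers -/
structure NuS {σ : S5.Cst} {cc : ℝ} {J M Md : ℕ} {p : Par} {X0 R0 h0 : ℕ} {Ω : Type} [Fintype Ω]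
    (x : Ctx σ cc J M Md p X0 R0 h0 Ω) : Prop where
  nu : Nu x
  Bg : p.B ≤ p.g
  Jg : J + 3 ≤ p.g
  B1 : 1 ≤ p.B
  T1 : 1 ≤ p.Tc
  k0 : 0 < p.k1
  βk : βr p ≤ p.k1
  nF : ∀ μ, 1 ≤ nFew p.m p.B μ
  NT : ∀ (oo : Oo) (b0 k : ℕ) (e : _) (hz : 0 < x.Q1.pr (x.w b0 k) e), (x.C oo b0 k e hz).D.N + 1 ≤ NT x.c
  mh : p.m * p.k1 ≤ x.c.I.h
  Jm : (x.c.I.J : ℝ) + 4 ≤ (x.c.I.h : ℝ) / x.c.I.m
  ha : 1 ≤ x.c.I.ha

/-- **the conditions hold eventually** -/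
theorem nuS (σ : S5.Cst) (cc : ℝ) (J M Md : ℕ) :
    Evp fun p X0 R0 h0 => ∀ (Ω : Type) [Fintype Ω] (x : Ctx σ cc J M Md p X0 R0 h0 Ω), NuS x := by
  refine ⟨1, fun m hm => ⟨1, fun B hB => ⟨B + J + 3, fun g hg => ⟨0, fun D0 _ s L hs hL hBL => ⟨9 * L + 1, fun k1 hk1 =>
    ⟨1, fun Tc hTc => ⟨8 * B, 0, m * k1 + m * (J + 4), fun X0 R0 h0 hX _ hh Ω _ x => ?_⟩⟩⟩⟩⟩⟩⟩
  have hh' := x.hh
  have hX' := x.hX0
  have em : x.c.I.m = m := x.em
  have eJ : x.c.I.J = J := x.eJ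
  have hmh : m * k1 + m * (J + 4) ≤ x.c.I.h := hh.trans hh'
  refine ⟨⟨?_, hBL, hL, hs, hm, ?_⟩, ?_, ?_, hB, hTc, ?_, ?_, fun μ => one_nFew m B μ, fun oo b0 k e hz => H449.NLe.N_le _, ?_,
    ?_, ?_⟩
  · show B + x.c.I.J + 2 ≤ g
    omega
  · show 8 * B ≤ x.c.I.rs
    omega
  · show B ≤ g
    omega
  · show J + 3 ≤ g
    omega
  · show 0 < k1
    omega
  · show 9 * L ≤ k1
    omega
  · show m * k1 ≤ x.c.I.h
    exact (Nat.le_add_right _ _).trans hmh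
  · rw [em, eJ, le_div_iff₀ (by exact_mod_cast hm)]
    have h1 : (J + 4) * m ≤ x.c.I.h := by
      rw [Nat.mul_comm]
      exact (Nat.le_add_left _ _).trans hmh
    exact_mod_cast h1
  · have h1 := x.good.Ab1
    have h2 := x.good.Ab2
    omega

/-- constant of the macroscopic terms -/
noncomputable def AS (m B g _ s L : ℕ) : ℝ :=
  lF m B * (2 * ((B + 1) * (27 * L + 162 * L ^ 2)) + 2 * ((g + B + 1) * (2 * (L * s + 2 * B + 2)) * B) + (g + 2) * B)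

theorem AS_nonneg (m B g D0 s L : ℕ) : 0 ≤ AS m B g D0 s L := by
  unfold AS
  have := lF_nonneg m B
  positivity

theorem tel_1 {L q k : ℝ} (hL : 0 ≤ L) (hk1 : 1 ≤ k) (hq0 : 0 ≤ q) :
    9 * L + 2 * (9 * L * (q * k + 9 * L)) / k ≤ (27 * L + 162 * L ^ 2) * (q + k) := by
  have hk : 0 < k := by linarith
  have e1 : 2 * (9 * L * (q * k + 9 * L)) / k = 18 * L * q + 162 * L ^ 2 / k := by
    field_simp
    ring
  rw [e1]
  have e2 : 162 * L ^ 2 / k ≤ 162 * L ^ 2 * k := by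
    rw [div_le_iff₀ hk]
    have h1 : 0 ≤ 162 * L ^ 2 := by positivity
    have h2 : 1 ≤ k * k := by nlinarith
    nlinarith
  have e3 : 9 * L ≤ 27 * L * k := by nlinarith
  have e4 : 0 ≤ L * q := mul_nonneg hL hq0
  have e5 : 0 ≤ L ^ 2 * q := mul_nonneg (by positivity) hq0
  nlinarith

theorem tel_real {B g L s T d k a H ℓ Λ : ℝ} (hB : 0 ≤ B) (hg : 0 ≤ g) (hL : 0 ≤ L) (hs : 0 ≤ s) (hT : 0 ≤ T)
    (hd0 : 0 ≤ d) (hd : d ≤ B) (hk1 : 1 ≤ k) (ha0 : 0 ≤ a) (ha : a + 1 ≤ 2 * H) (hkH : k ≤ H) (hl0 : 0 ≤ ℓ) (hl : ℓ ≤ Λ) :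
    (a + 1) * ((B + 1) * ((9 * L + 2 * (9 * L * (T + 9 * L)) / k) * ℓ)) +
      (a + 1) * ((k * ((g + d + 1) * (2 * (L * s + 2 * B + 2)))) * (B * ℓ)) + T * ((g + 2) * (B * ℓ)) ≤
    H * (Λ * (2 * ((B + 1) * (27 * L + 162 * L ^ 2)) + 2 * ((g + B + 1) * (2 * (L * s + 2 * B + 2)) * B) + (g + 2) * B) *
      (T / k + k)) := by
  have hk : 0 < k := by linarith
  have hH0 : 0 ≤ H := by linarith
  have hΛ : 0 ≤ Λ := hl0.trans hl
  obtain ⟨q, hq⟩ : ∃ q, q = T / k := ⟨_, rfl⟩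
  have hq0 : 0 ≤ q := by rw [hq]; positivity
  have hTq : T = q * k := by rw [hq]; field_simp
  rw [← hq, hTq]
  have t1 := tel_1 hL hk1 hq0
  have s1 : (a + 1) * ((B + 1) * ((9 * L + 2 * (9 * L * (q * k + 9 * L)) / k) * ℓ)) ≤
      2 * H * ((B + 1) * ((27 * L + 162 * L ^ 2) * (q + k) * Λ)) := by
    have e1 := mul_le_mul t1 hl hl0 (by positivity)
    have e2 := mul_le_mul_of_nonneg_left e1 (show 0 ≤ B + 1 by positivity)
    exact mul_le_mul ha e2 (by positivity) (by positivity)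
  have s2 : (a + 1) * ((k * ((g + d + 1) * (2 * (L * s + 2 * B + 2)))) * (B * ℓ)) ≤
      2 * H * (((q + k) * ((g + B + 1) * (2 * (L * s + 2 * B + 2)))) * (B * Λ)) := by
    have e1 : k * ((g + d + 1) * (2 * (L * s + 2 * B + 2))) ≤ (q + k) * ((g + B + 1) * (2 * (L * s + 2 * B + 2))) :=
      mul_le_mul (by linarith) (mul_le_mul_of_nonneg_right (by linarith) (by positivity)) (by positivity) (by positivity)
    have e2 := mul_le_mul e1 (mul_le_mul_of_nonneg_left hl hB) (by positivity) (by positivity)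
    exact mul_le_mul ha e2 (by positivity) (by positivity)
  have s3 : q * k * ((g + 2) * (B * ℓ)) ≤ H * (q + k) * ((g + 2) * (B * Λ)) := by
    have e1 : q * k ≤ H * (q + k) := by
      have h1 := mul_le_mul_of_nonneg_left hkH hq0
      have h2 : 0 ≤ H * k := mul_nonneg hH0 hk.le
      linarith
    have e2 : (g + 2) * (B * ℓ) ≤ (g + 2) * (B * Λ) :=
      mul_le_mul_of_nonneg_left (mul_le_mul_of_nonneg_left hl hB) (by positivity)
    exact mul_le_mul e1 e2 (by positivity) (by positivity)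
  have e := add_le_add (add_le_add s1 s2) s3
  refine e.trans (le_of_eq ?_)
  ring

section num

variable {σ : S5.Cst} {cc : ℝ} {J M Md : ℕ} {p : Par} {X0 R0 h0 : ℕ} {Ω : Type} [Fintype Ω]
  {x : Ctx σ cc J M Md p X0 R0 h0 Ω} (n : NuS x)

include n

theorem ha_le : (x.c.I.ha : ℝ) + 1 ≤ 2 * (x.c.I.h / p.m) := by
  have hm : (0 : ℝ) < p.m := by exact_mod_cast n.nu.hm
  have em : x.c.I.m = p.m := x.em
  have h1 : (x.c.I.ha : ℝ) ≤ (x.c.I.h : ℝ) / p.m := by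
    rw [le_div_iff₀ hm]
    have := x.good.hah
    rw [em] at this
    have h2 : ((p.m * x.c.I.ha : ℕ) : ℝ) ≤ (x.c.I.h : ℝ) := by exact_mod_cast this
    push_cast at h2
    linarith
  have h2 := n.Jm
  rw [em] at h2
  have h3 : (0 : ℝ) ≤ x.c.I.J := Nat.cast_nonneg _
  linarith

/-- **macroscopic terms** : telescope, young levels, low levels -/
theorem telN {μ d : ℕ} (hμ : μ ≤ p.B) (hd : d ≤ p.B) :
    (x.c.I.ha + 1) * ((p.B + 1) * ((βr p + 2 * (βr p * (p.Tc + βr p) : ℝ) / p.k1) * Real.log (nFew p.m p.B μ))) +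
      (x.c.I.ha + 1) * ((p.k1 * ((p.g + d + 1) * (2 * (MM p : ℝ)))) * (p.B * Real.log (nFew p.m p.B μ))) +
      p.Tc * ((p.g + 2) * (p.B * Real.log (nFew p.m p.B μ))) ≤
    (x.c.I.h / p.m) * (AS p.m p.B p.g p.D0 p.s p.L * ((p.Tc : ℝ) / p.k1 + p.k1)) := by
  have hk1 : (1 : ℝ) ≤ p.k1 := by exact_mod_cast n.k0
  have hm : (0 : ℝ) < p.m := by exact_mod_cast n.nu.hm
  have hkH : (p.k1 : ℝ) ≤ x.c.I.h / p.m := by
    rw [le_div_iff₀ hm]
    have := n.mh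
    have h2 : ((p.m * p.k1 : ℕ) : ℝ) ≤ (x.c.I.h : ℝ) := by exact_mod_cast this
    push_cast at h2
    linarith
  have eβ : (βr p : ℝ) = 9 * p.L := by unfold βr; push_cast; ring
  have eM : (MM p : ℝ) = p.L * p.s + 2 * p.B + 2 := by unfold MM; push_cast; ring
  rw [eβ, eM]
  exact tel_real (Nat.cast_nonneg _) (Nat.cast_nonneg _) (Nat.cast_nonneg _) (Nat.cast_nonneg _) (Nat.cast_nonneg _)
    (Nat.cast_nonneg _) (by exact_mod_cast hd) hk1 (Nat.cast_nonneg _) (ha_le n) hkH (Real.log_natCast_nonneg _) (le_lF hμ)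

/-- **the near term** -/
theorem nearN (hσ : σ.Ok) (oo : Oo) {μ : ℕ} {K' : ℝ} {o : Fin 7 → ℝ} :
    Real.sqrt (x.bs.card * p.Tc * (x.c.I.ha + 2 * x.c.I.pm.n + x.c.I.J + 4 : ℕ)) *
      Real.sqrt (x.mean oo p.Tc (fun w k z => sOff (w.R k z) (w.nm k z) (w.bS p.fp k) μ K' o)) ≤
    Real.sqrt (20 + 10 * σ.K1) * (Real.sqrt (x.nB * p.Tc * (x.c.I.h / p.m)) *
      Real.sqrt (x.mean oo (2 * p.Tc) (fun w k z => sOff (w.R k z) (w.nm k z) (w.bS p.fp k) μ K' o))) := by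
  have hK1 : 0 ≤ σ.K1 := hσ.bs.K10.le
  have em : x.c.I.m = p.m := x.em
  have h1 := H449.NLe.NT_le' x.good hK1 n.Jm
  rw [em] at h1
  have hH0 : (0 : ℝ) ≤ (x.c.I.h : ℝ) / p.m := by positivity
  have h2 : (x.bs.card : ℝ) ≤ x.nB := by exact_mod_cast H715.OldS.card_bs x
  have hoff : ∀ (w : Win Ω) (k : ℕ) (z : Vl), 0 ≤ sOff (w.R k z) (w.nm k z) (w.bS p.fp k) μ K' o := fun w k z => sOff_nonneg
  rw [← mul_assoc, ← Real.sqrt_mul (show 0 ≤ 20 + 10 * σ.K1 by linarith)]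
  refine mul_le_mul (Real.sqrt_le_sqrt ?_) (Real.sqrt_le_sqrt ?_) (Real.sqrt_nonneg _) (Real.sqrt_nonneg _)
  · calc (x.bs.card * p.Tc * (x.c.I.ha + 2 * x.c.I.pm.n + x.c.I.J + 4 : ℕ) : ℝ) ≤
        x.nB * p.Tc * ((20 + 10 * σ.K1) * ((x.c.I.h : ℝ) / p.m)) := by
          refine mul_le_mul (mul_le_mul_of_nonneg_right h2 (Nat.cast_nonneg _)) h1 (Nat.cast_nonneg _) (by positivity)
      _ = _ := by ring
  · exact x.mean_range hoff (by omega)

end num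

end Vale.Agent.P106.U.H712.SNum
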