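import Vale.Agent.P106.U.H661.SOld
import Vale.Agent.P106.U.H711.LabW
import Vale.Agent.P106.U.H715.UndS
import Vale.Agent.P106.U.H712.SNum

/-!
# P106 / U / H712 / SWinT : the window theorem of row [S] (helper712)

* `Pls` : the bound at a place, all data (helper61's `place_o`).
* **`sWin_of : Pls → SWin`**.
-/

set_option autoImplicit false

namespace Vale.Agent.P106.U.H712.SWinT

open Finset Vale.Agent.P127 Vale.Agent.P127.Stk Vale.Agent.P127.U Vale.Agent.P106.W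
open Vale.Agent.P106.U Vale.Agent.P106.U.H449
open Vale.Agent.P106.U.H565 Vale.Agent.P106.U.H823.NumW
open Vale.Agent.P106.U.S3 (Run Pf)
open Vale.Agent.P106.U.H712.Fam (Win Vl Pl)
open Vale.Agent.P106.U.H61.Ext2 Vale.Agent.P106.U.H61.PS
open Vale.Agent.P106.U.H661.SD Vale.Agent.P106.U.H661.SPair Vale.Agent.P106.U.H661.SPairB
open Vale.Agent.P106.U.H523.FewS (nFew nM nA)
open Vale.Agent.P106.U.H712.SLast Vale.Agent.P106.U.H712.SNum

/-- **the bound at a place**, all data -/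
def Pls : Prop :=
  ∀ (σ : S5.Cst) (cc : ℝ) (J M Md : ℕ) (p : Par) (X0 R0 h0 : ℕ) (Ω : Type) [Fintype Ω]
    (x : Ctx σ cc J M Md p X0 R0 h0 Ω), NuS x → ∀ (oo : Oo), ∀ b0 ∈ x.bs, ∀ μ ≤ p.B, ∀ (o : Fin 7 → ℝ), ∀ d ≤ p.B,
      PlO x oo b0 μ o d

/-- **the window theorem of row [S]** -/
theorem sWin_of (hP : Pls) : SWin := by
  classical
  intro σ hσ K Cψ cc J M Md hC
  have hcR : 0 ≤ cR (MF 6 648) := cR_nonneg _
  have hcC : 0 ≤ cC 648 := cC_nonneg _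
  refine ⟨AS, 2 * cR (MF 6 648), cC 648 * (2 * Real.sqrt (20 + 10 * σ.K1)), AS_nonneg, by positivity, by positivity, ?_⟩
  refine (nuS σ cc J M Md).mono ?_
  intro p X0 R0 h0 hn Ω _ x oo μ hμ hm K' hK' o o' ho d hd
  have n := hn Ω x
  have hK648 := hC.hK
  have hK1 : (640 : ℝ) * 648 ^ 7 ≤ K' := by
    refine le_trans ?_ hK'
    have h1 : (64800 : ℝ) ≤ 100 * K := by linarith
    calc (640 : ℝ) * 648 ^ 7 ≤ 64800 ^ 20 := by norm_num
      _ ≤ (100 * K) ^ 20 := pow_le_pow_left₀ (by norm_num) h1 20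
  have hdg : d ≤ p.g := hd.trans n.Bg
  have hr : 8 * μ ≤ x.c.I.rs := by
    have := n.nu.hrs
    omega
  -- young and old parts
  have hsp : x.mean oo p.Tc (fun w k z => if p.k1 ≤ k then
        sS (w.R k z) (w.nm k z) p.B (w.bS p.fp k) (w.Vs p.fp k z) (w.Xs p.fp k z) μ o d else 0) =
      x.mean oo p.Tc (fun w k z => if p.k1 ≤ k then H715.OldS.yS (w.R k z) (w.nm k z) p.B (w.bS p.fp k) (w.Vs p.fp k z)
        (w.Xs p.fp k z) μ o d (H715.OldS.yn w (H715.RegC.Fo x.c x.E1) (MM p) p.g d p.k1 k z) else 0) +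
      x.mean oo p.Tc (fun w k z => if p.k1 ≤ k then oS x w μ o d k z else 0) := by
    rw [← x.mean_add]
    congr 1
    funext w k z
    split_ifs with hk
    · exact H715.OldS.yS_split _ _ _ _ _ _ _ _ _ _
    · rw [add_zero]
  have hY := H715.OldS.old_sum x oo (H715.RegC.Fo x.c x.E1) (MM p) p.g p.Tc (μ := μ) o (d := d) le_rfl hdg hμ hr
  have hO := s_old_of x n.nu oo hμ o n.k0 n.βk (n.nF μ) (fun b0 hb0 => hP σ cc J M Md p X0 R0 h0 Ω x n oo b0 hb0 μ hμ o d hd)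
    (far_lab x oo μ o d p.Tc) (near_c x oo μ o hK1 d p.Tc) (near_S x oo μ o hK1 d p.Tc)
  have hN := nearN n hσ oo (μ := μ) (K' := K') (o := o)
  have hT := telN n hμ hd
  have hbs : (x.bs.card : ℝ) ≤ x.nB := by exact_mod_cast H715.OldS.card_bs x
  obtain ⟨ℓ, hℓ⟩ : ∃ ℓ, ℓ = Real.log (nFew p.m p.B μ) := ⟨_, rfl⟩
  have hℓ0 : 0 ≤ ℓ := by rw [hℓ]; exact Real.log_natCast_nonneg _
  rw [← hℓ] at hY hO hT
  obtain ⟨Y, hYe⟩ : ∃ Y, Y = x.mean oo (2 * p.Tc) (fun w k z => sOff (w.R k z) (w.nm k z) (w.bS p.fp k) μ K' o) := ⟨_, rfl⟩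
  obtain ⟨E, hE⟩ : ∃ E, E = Real.sqrt (x.bs.card * p.Tc * (NT x.c : ℕ)) *
        Real.sqrt (x.mean oo p.Tc (fun w k z => sOff (w.R k z) (w.nm k z) (w.bS p.fp k) μ K' o)) := ⟨_, rfl⟩
  have hE1 : E ≤ Real.sqrt (20 + 10 * σ.K1) * (Real.sqrt (x.nB * p.Tc * (x.c.I.h / p.m)) * Real.sqrt Y) := by
    rw [hE, hYe]
    exact hN
  rw [← hE] at hO
  rw [← hYe, hsp]
  refine (add_le_add hY hO).trans ?_
  have e1 : (x.bs.card : ℝ) * (((x.c.I.ha + 1) * (p.B + 1)) * ((βr p + 2 * (βr p * (p.Tc + βr p) : ℝ) / p.k1) * ℓ) +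
          p.Tc * ((p.g + 1) * (p.B * ℓ))) ≤
      x.nB * (((x.c.I.ha + 1) * (p.B + 1)) * ((βr p + 2 * (βr p * (p.Tc + βr p) : ℝ) / p.k1) * ℓ) +
          p.Tc * ((p.g + 2) * (p.B * ℓ))) := by
    have h1 : (p.Tc : ℝ) * ((p.g + 1) * (p.B * ℓ)) ≤ p.Tc * ((p.g + 2) * (p.B * ℓ)) := by
      refine mul_le_mul_of_nonneg_left (mul_le_mul_of_nonneg_right (by linarith) (by positivity)) (Nat.cast_nonneg _)
    refine mul_le_mul hbs (by linarith) (by positivity) (by positivity)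
  have e2 := mul_le_mul_of_nonneg_left hT (show (0 : ℝ) ≤ x.nB from Nat.cast_nonneg _)
  have e3 : cC 648 * (E + E) ≤ cC 648 * (2 * Real.sqrt (20 + 10 * σ.K1)) * Real.sqrt (x.nB * p.Tc * (x.c.I.h / p.m)) *
      Real.sqrt Y := by
    have h1 := mul_le_mul_of_nonneg_left hE1 hcC
    calc cC 648 * (E + E) = 2 * (cC 648 * E) := by ring
      _ ≤ 2 * (cC 648 * (Real.sqrt (20 + 10 * σ.K1) * (Real.sqrt (x.nB * p.Tc * (x.c.I.h / p.m)) * Real.sqrt Y))) := by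
        linarith
      _ = _ := by ring
  have e4 : ∀ F : ℝ, 2 * (cR (MF 6 648) * F) = 2 * cR (MF 6 648) * F := fun F => by ring
  rw [e4]
  have e5 : (x.nB : ℝ) * ((x.c.I.ha + 1) * ((p.B + 1) * ((βr p + 2 * (βr p * (p.Tc + βr p) : ℝ) / p.k1) * ℓ)) +
      (x.c.I.ha + 1) * ((p.k1 * ((p.g + d + 1) * (2 * (MM p : ℝ)))) * (p.B * ℓ)) + p.Tc * ((p.g + 2) * (p.B * ℓ))) =
      x.nB * ((x.c.I.ha + 1) * ((p.k1 * ((p.g + d + 1) * (2 * (MM p : ℝ)))) * (p.B * ℓ))) +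
      x.nB * (((x.c.I.ha + 1) * (p.B + 1)) * ((βr p + 2 * (βr p * (p.Tc + βr p) : ℝ) / p.k1) * ℓ) +
          p.Tc * ((p.g + 2) * (p.B * ℓ))) := by ring
  rw [e5] at e2
  linarith

end Vale.Agent.P106.U.H712.SWinT
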